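import Vale.Agent.P273.H738.Marks
import Vale.Agent.P273.H732.Conv

/-!
# P273, LIM-G2: the roots seen from the marks in the region charts

Helper732's charts `scl R ∘ psi` of helper95's regions; roots `b (2k) = e_k - d_k`,
`b (2k+1) = e_k + d_k`, `d_k = (1/16) exp ((- y_k + α_k I) / 2)`.
-/

open Filter Topology
open Complex (exp)

noncomputable section

namespace Vale.Agent.P273.H738

open H95 H732

/-- the neck of a root -/
def kp (i : Fin 6) : Fin 3 := ⟨i / 2, by omega⟩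

/-- the sign of a root -/
def sg6 (i : Fin 6) : ℂ := if (i : ℕ) % 2 = 0 then -1 else 1

theorem sg6_sq (i : Fin 6) : sg6 i ^ 2 = 1 := by unfold sg6; split_ifs <;> norm_num

section

variable (R : Region) (m : ∀ k, Fin (R.n k + 1))

/-- the chart coordinates -/
abbrev Cc : Type := (wreg R.n m).Co R.Cm

/-- the point of the region -/
def ppt (q : Cc R m) : R.Sp := scl R ((wreg R.n m).psi q)

/-- the logarithm of `ε / c ^ 2` -/
def le3 (l : Fin 3) : Cc R m →L[ℝ] ℂ := (wreg R.n m).lS ((wreg R.n m).neck l)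

/-- the six roots -/
def rt6 (q : Cc R m) (i : Fin 6) : ℂ := rts (1 / 16) ctr (le3 R m) kp sg6 q i

/-- the derivative of a root -/
def Drt6 (q : Cc R m) (i : Fin 6) : Cc R m →L[ℝ] ℂ := Drt (1 / 16) (le3 R m) kp sg6 q i

theorem hasFDerivAt_rt6 (q : Cc R m) (i : Fin 6) :
    HasFDerivAt (fun q => rt6 R m q i) (Drt6 R m q i) q :=
  hasFDerivAt_rts (1 / 16) ctr (le3 R m) kp sg6 q i

theorem le3_eq (q : Cc R m) (l : Fin 3) :
    le3 R m l q = -(q.2.2.1 l : ℂ) + (q.2.2.2.1 l : ℂ) * Complex.I := Reg.lS_neck _ q l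

/-- half distance of a pair, squared -/
theorem hd_sq (q : Cc R m) (l : Fin 3) :
    hd (1 / 16) (le3 R m) l q ^ 2 = R.eps (ppt R m q) l := by
  rw [ppt, eps_scl_psi, ← le3_eq, hd, mul_pow, ← Complex.exp_nat_mul]
  congr 2
  push_cast; ring

theorem rt6_sub (q : Cc R m) (i : Fin 6) :
    (rt6 R m q i - ctr (kp i)) ^ 2 = R.eps (ppt R m q) (kp i) := by
  rw [← hd_sq]
  unfold rt6 rts
  have := sg6_sq i
  linear_combination (hd (1 / 16) (le3 R m) (kp i) q) ^ 2 * this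

/-- **the coefficients of the sextic are those of the six roots** -/
theorem rts_rt6 (q : Cc R m) : H95.rts (rt6 R m q) = thA (R.eps (ppt R m q)) := by
  have h : (∏ k : Fin 6, (Polynomial.X - Polynomial.C (rt6 R m q k))) =
      ∏ k : Fin 3, ((Polynomial.X - Polynomial.C (ctr k)) ^ 2 -
        Polynomial.C (R.eps (ppt R m q) k)) := by
    simp only [← hd_sq]
    rw [Fin.prod_univ_six, Fin.prod_univ_three]
    have e0 : rt6 R m q 0 = ctr 0 - hd (1 / 16) (le3 R m) 0 q := by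
      simp [rt6, rts, kp, sg6]; ring
    have e1 : rt6 R m q 1 = ctr 0 + hd (1 / 16) (le3 R m) 0 q := by
      simp [rt6, rts, kp, sg6]
    have e2 : rt6 R m q 2 = ctr 1 - hd (1 / 16) (le3 R m) 1 q := by
      simp [rt6, rts, kp, sg6]; ring
    have e3 : rt6 R m q 3 = ctr 1 + hd (1 / 16) (le3 R m) 1 q := by
      simp [rt6, rts, kp, sg6]
    have e4 : rt6 R m q 4 = ctr 2 - hd (1 / 16) (le3 R m) 2 q := by
      simp [rt6, rts, kp, sg6]; ring
    have e5 : rt6 R m q 5 = ctr 2 + hd (1 / 16) (le3 R m) 2 q := by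
      simp [rt6, rts, kp, sg6]
    rw [e0, e1, e2, e3, e4, e5]
    simp only [map_add, map_sub, map_pow]
    ring
  funext i
  unfold H95.rts thA
  rw [h]

/-- the mark is in the neck `k`: its rank -/
def rkF {j : L} {k : Fin 3} (h : R.pl j = Sum.inl k) : Fin (R.n k) := ⟨R.rk j, R.rk_lt j k h⟩

variable {R}

/-- logarithms of the neck coordinates of a mark -/
def mX {j : L} {k : Fin 3} (h : R.pl j = Sum.inl k) : Cc R m →L[ℝ] ℂ :=
  wreg.LX R.Cm R.n m k (rkF R h)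

def mY {j : L} {k : Fin 3} (h : R.pl j = Sum.inl k) : Cc R m →L[ℝ] ℂ :=
  wreg.LY R.Cm R.n m k (rkF R h)

/-- the position of a neck mark -/
theorem pos_ppt_neck {j : L} {k : Fin 3} (h : R.pl j = Sum.inl k) (q : Cc R m) :
    R.pos (ppt R m q) j = ctr k + 1 / 16 * zz (mX m h) (mY m h) q := by
  rw [pos_neck R _ h]
  have e1 := XX_scl_psi R m q k (rkF R h)
  have e2 := YY_scl_psi R m q k (rkF R h)
  have e3 : ((rkF R h : Fin (R.n k)) : ℕ) = R.rk j := rfl
  rw [e3] at e1 e2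
  unfold ppt
  rw [e1, e2]
  unfold zz mX mY
  ring

theorem pos_ppt_core {j : L} {s : Bool} (h : R.pl j = Sum.inr s) (q : Cc R m) :
    R.pos (ppt R m q) j = q.2.2.2.2 ⟨j, by simp [h]⟩ := by
  rw [pos_core R _ h, ppt, scl_apply]
  rfl

theorem mX_add_mY {j : L} {k : Fin 3} (h : R.pl j = Sum.inl k) (q : Cc R m) :
    mX m h q + mY m h q = le3 R m k q := by
  rw [le3_eq]
  exact wreg.LX_add_LY m q k _

/-- the closed region of the chart -/
structure Adm (q : Cc R m) : Prop where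
  inr : (wreg R.n m).Inr q
  ul : ∀ k, 0 ≤ (wreg R.n m).ul q k

variable {m}

theorem Adm.y_nonneg {q : Cc R m} (A : Adm m q) (k : Fin 3) : 0 ≤ q.2.2.1 k := by
  rw [← (wreg R.n m).sum_ug q k]
  exact Finset.sum_nonneg fun g _ => by
    split_ifs
    · exact (wreg R.n m).ug_nonneg A.inr A.ul g
    · exact le_rfl

theorem norm_hd_eq (q : Cc R m) (l : Fin 3) :
    ‖hd (1 / 16) (le3 R m) l q‖ = 1 / 16 * Real.exp (-(q.2.2.1 l) / 2) := by
  unfold hd
  rw [norm_mul, Complex.norm_exp, le3_eq]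
  have h1 : ‖(1 / 16 : ℂ)‖ = 1 / 16 := by norm_num
  rw [h1]
  congr 2
  simp

theorem Adm.norm_hd_le {q : Cc R m} (A : Adm m q) (l : Fin 3) :
    ‖hd (1 / 16) (le3 R m) l q‖ ≤ 1 / 16 := by
  rw [norm_hd_eq]
  have h := A.y_nonneg l
  have h2 : Real.exp (-(q.2.2.1 l) / 2) ≤ 1 := by
    rw [Real.exp_le_one_iff]; linarith
  linarith

theorem Adm.norm_X_le {q : Cc R m} (A : Adm m q) {j : L} {k : Fin 3} (h : R.pl j = Sum.inl k) :
    ‖exp (mX m h q)‖ ≤ 1 := (wreg R.n m).norm_exp_lS_le_one A.inr A.ul _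

theorem Adm.norm_Y_le {q : Cc R m} (A : Adm m q) {j : L} {k : Fin 3} (h : R.pl j = Sum.inl k) :
    ‖exp (mY m h q)‖ ≤ 1 := (wreg R.n m).norm_exp_lS_le_one A.inr A.ul _

theorem ctr_dist {k l : Fin 3} (h : l ≠ k) : 2 ≤ ‖ctr k - ctr l‖ := by
  have e : ctr k - ctr l = ((2 * ((k : ℕ) : ℝ) - 2 * ((l : ℕ) : ℝ) : ℝ) : ℂ) := by
    unfold ctr; push_cast; ring
  rw [e, Complex.norm_real, Real.norm_eq_abs]
  have h2 : ((k : ℕ) : ℤ) ≠ ((l : ℕ) : ℤ) := fun h3 => h (Fin.ext (by exact_mod_cast h3.symm))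
  have h3 : (1 : ℤ) ≤ |((k : ℕ) : ℤ) - ((l : ℕ) : ℤ)| := Int.one_le_abs (sub_ne_zero.2 h2)
  have h4 : (1 : ℝ) ≤ |((k : ℕ) : ℝ) - ((l : ℕ) : ℝ)| := by exact_mod_cast h3
  have e5 : (2 * ((k : ℕ) : ℝ) - 2 * ((l : ℕ) : ℝ)) = 2 * (((k : ℕ) : ℝ) - ((l : ℕ) : ℝ)) := by ring
  rw [e5, abs_mul]
  norm_num
  linarith

theorem norm_czz_le {q : Cc R m} (A : Adm m q) {j : L} {k : Fin 3} (h : R.pl j = Sum.inl k) :
    ‖(1 / 16 : ℂ) * zz (mX m h) (mY m h) q‖ ≤ 1 / 16 := by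
  have h1 := A.norm_X_le h
  have h2 := A.norm_Y_le h
  unfold zz
  have h3 := norm_add_le (exp (mX m h q)) (exp (mY m h q))
  have h4 : ‖(1 / 16 : ℂ)‖ = 1 / 16 := by norm_num
  have h5 : ‖(2 : ℂ)‖ = 2 := by simp
  rw [norm_mul, h4, norm_div, h5]
  linarith

/-- the other roots are far -/
theorem far_le {q : Cc R m} (A : Adm m q) {j : L} {k : Fin 3} (h : R.pl j = Sum.inl k) {i : Fin 6}
    (hi : kp i ≠ k) : 1 ≤ ‖ctr k + 1 / 16 * zz (mX m h) (mY m h) q - rt6 R m q i‖ := by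
  have h1 := ctr_dist hi
  have h2 := norm_czz_le A h
  have h3 : ‖sg6 i * hd (1 / 16) (le3 R m) (kp i) q‖ ≤ 1 / 16 := by
    rw [norm_mul, norm_sig (sg6_sq i), one_mul]
    exact A.norm_hd_le _
  have e : ctr k - ctr (kp i) = (ctr k + 1 / 16 * zz (mX m h) (mY m h) q - rt6 R m q i) -
      1 / 16 * zz (mX m h) (mY m h) q + sg6 i * hd (1 / 16) (le3 R m) (kp i) q := by
    unfold rt6 rts; ring
  rw [e] at h1
  have h4 := norm_add_le ((ctr k + 1 / 16 * zz (mX m h) (mY m h) q - rt6 R m q i) -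
      1 / 16 * zz (mX m h) (mY m h) q) (sg6 i * hd (1 / 16) (le3 R m) (kp i) q)
  have h5 := norm_sub_le (ctr k + 1 / 16 * zz (mX m h) (mY m h) q - rt6 R m q i)
    (1 / 16 * zz (mX m h) (mY m h) q)
  linarith

/-- the scale of a root at least `2 d ^ 2` -/
theorem two_sq_le_hhs {q : Cc R m} (A : Adm m q) (i : Fin 6) :
    2 * ‖hd (1 / 16) (le3 R m) (kp i) q‖ ^ 2 ≤ hhs (rt6 R m q) i := by
  have hpos : 0 < ‖hd (1 / 16) (le3 R m) (kp i) q‖ := by
    refine norm_pos_iff.2 (mul_ne_zero (by norm_num) (Complex.exp_ne_zero _))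
  have hle := A.norm_hd_le (kp i)
  have hb : ∀ j, kp j ≠ kp i → 1 ≤ ‖rt6 R m q j - rt6 R m q i‖ := by
    intro j hj
    have h1 := ctr_dist (k := kp j) (l := kp i) (Ne.symm hj)
    have e : ctr (kp j) - ctr (kp i) = (rt6 R m q j - rt6 R m q i) -
        sg6 j * hd (1 / 16) (le3 R m) (kp j) q + sg6 i * hd (1 / 16) (le3 R m) (kp i) q := by
      unfold rt6 rts; ring
    rw [e] at h1
    have h2 := norm_add_le ((rt6 R m q j - rt6 R m q i) -
        sg6 j * hd (1 / 16) (le3 R m) (kp j) q) (sg6 i * hd (1 / 16) (le3 R m) (kp i) q)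
    have h3 := norm_sub_le (rt6 R m q j - rt6 R m q i) (sg6 j * hd (1 / 16) (le3 R m) (kp j) q)
    have h4 : ‖sg6 i * hd (1 / 16) (le3 R m) (kp i) q‖ ≤ 1 / 16 := by
      rw [norm_mul, norm_sig (sg6_sq i), one_mul]; exact A.norm_hd_le _
    have h5 : ‖sg6 j * hd (1 / 16) (le3 R m) (kp j) q‖ ≤ 1 / 16 := by
      rw [norm_mul, norm_sig (sg6_sq j), one_mul]; exact A.norm_hd_le _
    linarith
  obtain ⟨i₀, hi₀, hk, hs⟩ : ∃ i₀ : Fin 6, i₀ ≠ i ∧ kp i₀ = kp i ∧ sg6 i₀ = -sg6 i := by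
    fin_cases i
    · exact ⟨1, by decide, by decide, by simp [sg6]⟩
    · exact ⟨0, by decide, by decide, by simp [sg6]⟩
    · exact ⟨3, by decide, by decide, by simp [sg6]⟩
    · exact ⟨2, by decide, by decide, by simp [sg6]⟩
    · exact ⟨5, by decide, by decide, by simp [sg6]⟩
    · exact ⟨4, by decide, by decide, by simp [sg6]⟩
  refine hh_ge hi₀ hpos ?_ ?_
  · have e : rt6 R m q i₀ - rt6 R m q i = -(2 * (sg6 i * hd (1 / 16) (le3 R m) (kp i) q)) := by
      unfold rt6 rts; rw [hk, hs]; ring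
    rw [e, norm_neg, norm_mul, norm_mul, norm_sig (sg6_sq i)]
    simp
  · intro j hj hj0
    have hkj : kp j ≠ kp i := by
      have key : ∀ i i₀ j : Fin 6, i₀ ≠ i → kp i₀ = kp i → j ≠ i → j ≠ i₀ → kp j ≠ kp i := by
        decide
      exact key i i₀ j hi₀ hk hj hj0
    have h1 := hb j hkj
    have h2 : ‖hd (1 / 16) (le3 R m) (kp i) q‖ ^ 2 ≤ (1 / 16) ^ 2 := by gcongr
    have h3 : (1 : ℝ) ≤ ‖rt6 R m q j - rt6 R m q i‖ ^ 2 := by nlinarith
    simp only [Fintype.card_fin]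
    norm_num at h2 ⊢
    linarith

/-- **off helper214's discs** -/
theorem off_of_disc {q : Cc R m} (A : Adm m q) {x : ℂ} {i : Fin 6}
    (h : hhs (rt6 R m q) i / 64 ≤ ‖x - rt6 R m q i‖ ^ 2) :
    1 / 8 * ‖hd (1 / 16) (le3 R m) (kp i) q‖ ≤ ‖x - rt6 R m q i‖ := by
  have h1 := two_sq_le_hhs A i
  have h2 : (1 / 8 * ‖hd (1 / 16) (le3 R m) (kp i) q‖) ^ 2 ≤ ‖x - rt6 R m q i‖ ^ 2 := by
    have := sq_nonneg ‖hd (1 / 16) (le3 R m) (kp i) q‖
    nlinarith
  exact le_of_sq_le_sq h2 (norm_nonneg _)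

/-- **the data of a neck mark** -/
theorem neckPt {q : Cc R m} (A : Adm m q) {j : L} {k : Fin 3} (h : R.pl j = Sum.inl k)
    (hoff : ∀ i, kp i = k →
      1 / 8 * ‖hd (1 / 16) (le3 R m) k q‖ ≤ ‖R.pos (ppt R m q) j - rt6 R m q i‖) :
    NeckPt (1 / 16) ctr (le3 R m) kp sg6 k (mX m h) (mY m h) q 1 where
  c0 := by norm_num
  c1 := by norm_num
  sq := sg6_sq
  sum := mX_add_mY m h
  hX := A.norm_X_le h
  hY := A.norm_Y_le h
  hd l := (A.norm_hd_le l).trans (by norm_num)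
  δpos := one_pos
  far i hi := far_le A h hi
  off i hi := by rw [← pos_ppt_neck m h]; exact hoff i hi

/-- the coordinate directions -/
theorem dir1_vec {j : L} {k : Fin 3} (h : R.pl j = Sum.inl k) (d : (wreg R.n m).Dir R.Cm) :
    Dir1 (le3 R m) (mX m h) (mY m h) ((wreg R.n m).vec d) where
  X := (wreg R.n m).norm_lS_vec_le _ d
  Y := (wreg R.n m).norm_lS_vec_le _ d
  e _ := (wreg R.n m).norm_lS_vec_le _ d

/-- the Euler vector -/
theorem dir1_eul {j : L} {k : Fin 3} (h : R.pl j = Sum.inl k) {q : Cc R m} (A : Adm m q) {l : Fin 3}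
    (hy : 0 < q.2.2.1 l) :
    Dir1 (le3 R m) (mX m h) (mY m h) ((wreg R.n m).eul q l) := by
  have key : ∀ S : Finset (Σ k, Fin (R.n k + 1)), (∃ k', S ⊆ (wreg R.n m).neck k') →
      ‖(wreg R.n m).lS S ((wreg R.n m).eul q l)‖ ≤ 1 := by
    rintro S ⟨k', hS⟩
    by_cases hk : k' = l
    · subst hk
      exact (wreg R.n m).norm_lS_eul_le A.inr A.ul hS hy
    · rw [(wreg R.n m).lS_eul_of_disjoint _ q hy.ne']
      · simp
      · rw [Finset.disjoint_left]
        intro g hg hg'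
        exact hk (((wreg R.n m).mem_neck.1 (hS hg)).symm.trans ((wreg R.n m).mem_neck.1 hg'))
  exact ⟨key _ ⟨k, wreg.bef_subset m k _⟩, key _ ⟨k, wreg.aft_subset m k _⟩,
    fun l' => key _ ⟨l', subset_rfl⟩⟩

/-- the ratio of the two coordinates of a mark -/
theorem norm_qq_mark {j : L} {k : Fin 3} (h : R.pl j = Sum.inl k) (q : Cc R m) :
    ‖qq (mX m h) (mY m h) q‖ = Real.exp (wreg.dep m q k (rkF R h) - q.2.2.1 k / 2) := by
  rw [norm_qq]
  congr 1
  unfold mX mY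
  rw [wreg.LX_eq, wreg.LY_eq]
  simp
  ring

theorem norm_X_mark {j : L} {k : Fin 3} (h : R.pl j = Sum.inl k) (q : Cc R m) :
    ‖exp (mX m h q)‖ = Real.exp (-wreg.dep m q k (rkF R h)) := by
  rw [Complex.norm_exp]
  congr 1
  unfold mX
  rw [wreg.LX_eq]
  simp

theorem norm_Y_mark {j : L} {k : Fin 3} (h : R.pl j = Sum.inl k) (q : Cc R m) :
    ‖exp (mY m h q)‖ = Real.exp (-(q.2.2.1 k - wreg.dep m q k (rkF R h))) := by
  rw [Complex.norm_exp]
  congr 1
  unfold mY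
  rw [wreg.LY_eq]
  simp

/-- two marks of the same neck and a direction which touches no gap between them -/
theorem rigid_mX {j j' : L} {k : Fin 3} (h : R.pl j = Sum.inl k) (h' : R.pl j' = Sum.inl k)
    {w : Cc R m} (hw : ∀ g : Fin (R.n k + 1),
      min (R.rk j) (R.rk j') < g → (g : ℕ) ≤ max (R.rk j) (R.rk j') →
        (wreg R.n m).Z w ⟨k, g⟩ = 0) : mX m h' w = mX m h w := by
  have key : ∀ {j j' : L} (h : R.pl j = Sum.inl k) (h' : R.pl j' = Sum.inl k),
      (∀ g : Fin (R.n k + 1), min (R.rk j) (R.rk j') < g → (g : ℕ) ≤ max (R.rk j) (R.rk j') →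
        (wreg R.n m).Z w ⟨k, g⟩ = 0) → R.rk j ≤ R.rk j' → mX m h' w = mX m h w := by
    intro j j' h h' hw hle
    rw [min_eq_left hle, max_eq_right hle] at hw
    unfold mX wreg.LX
    rw [Reg.lS_apply, Reg.lS_apply]
    refine (Finset.sum_subset ?_ ?_).symm
    · intro g hg
      obtain ⟨a, ha, rfl⟩ := wreg.mem_bef.1 hg
      refine wreg.mem_bef.2 ⟨a, ?_, rfl⟩
      rw [Fin.le_def] at ha ⊢
      exact ha.trans hle
    · intro g hg hg'
      obtain ⟨a, ha, rfl⟩ := wreg.mem_bef.1 hg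
      refine hw a ?_ ?_
      · by_contra hc
        rw [not_lt] at hc
        exact hg' (wreg.mem_bef.2 ⟨a, by rw [Fin.le_def]; exact hc, rfl⟩)
      · rw [Fin.le_def] at ha
        exact ha
  rcases le_total (R.rk j) (R.rk j') with hle | hle
  · exact key h h' hw hle
  · refine (key h' h (fun g hg hg' => hw g ?_ ?_) hle).symm
    · rwa [min_comm]
    · rwa [max_comm]

theorem rigid_mY {j j' : L} {k : Fin 3} (h : R.pl j = Sum.inl k) (h' : R.pl j' = Sum.inl k)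
    {w : Cc R m} (hw : ∀ g : Fin (R.n k + 1),
      min (R.rk j) (R.rk j') < g → (g : ℕ) ≤ max (R.rk j) (R.rk j') →
        (wreg R.n m).Z w ⟨k, g⟩ = 0) : mY m h' w = mY m h w := by
  have e1 := mX_add_mY m h w
  have e2 := mX_add_mY m h' w
  have e3 := rigid_mX h h' hw
  rw [e3] at e2
  exact add_left_cancel (e2.trans e1.symm)

/-! ### the derivative of a mark and of its distances to the roots -/

variable (m)

/-- the derivative of the position of a mark -/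
def Dpos (q : Cc R m) (j : L) : Cc R m →L[ℝ] ℂ :=
  match h : R.pl j with
  | Sum.inl _ => (1 / 16 : ℂ) • Dz (mX m h) (mY m h) q
  | Sum.inr _ => (ContinuousLinearMap.proj (⟨j, by simp [h]⟩ : R.Cm) : (R.Cm → ℂ) →L[ℝ] ℂ).comp
      (wreg R.n m).sc

theorem Dpos_neck {j : L} {k : Fin 3} (h : R.pl j = Sum.inl k) (q : Cc R m) :
    Dpos m q j = (1 / 16 : ℂ) • Dz (mX m h) (mY m h) q := by
  unfold Dpos
  split
  · rename_i k' h'
    have : k' = k := by rw [h] at h'; exact (Sum.inl.inj h').symm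
    subst this
    rfl
  · rename_i s h'
    rw [h] at h'
    cases h'

theorem Dpos_core {j : L} {s : Bool} (h : R.pl j = Sum.inr s) (q : Cc R m) :
    Dpos m q j = (ContinuousLinearMap.proj (⟨j, by simp [h]⟩ : R.Cm) : (R.Cm → ℂ) →L[ℝ] ℂ).comp
      (wreg R.n m).sc := by
  unfold Dpos
  split
  · rename_i k' h'
    rw [h] at h'
    cases h'
  · rfl

theorem hasFDerivAt_pos (q : Cc R m) (j : L) :
    HasFDerivAt (fun q => R.pos (ppt R m q) j) (Dpos m q j) q := by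
  cases h : R.pl j with
  | inl k =>
    rw [Dpos_neck m h]
    refine (((hasFDerivAt_zz (mX m h) (mY m h) q).const_mul (1 / 16 : ℂ)).const_add
      (ctr k)).congr_of_eventuallyEq (Eventually.of_forall fun q => ?_)
    exact pos_ppt_neck m h q
  | inr s =>
    rw [Dpos_core m h]
    refine (ContinuousLinearMap.hasFDerivAt _).congr_of_eventuallyEq
      (Eventually.of_forall fun q => ?_)
    exact pos_ppt_core m h q

/-- the derivative of `x_j - b_i` -/
def Tm (q : Cc R m) (j : L) (i : Fin 6) : Cc R m →L[ℝ] ℂ := Dpos m q j - Drt6 R m q i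

/-- the distance `x_j - b_i` -/
def tm (q : Cc R m) (j : L) (i : Fin 6) : ℂ := R.pos (ppt R m q) j - rt6 R m q i

theorem hasFDerivAt_tm (q : Cc R m) (j : L) (i : Fin 6) :
    HasFDerivAt (fun q => tm m q j i) (Tm m q j i) q :=
  (hasFDerivAt_pos m q j).sub (hasFDerivAt_rt6 R m q i)

theorem Tm_neck {j : L} {k : Fin 3} (h : R.pl j = Sum.inl k) (q : Cc R m) (i : Fin 6) :
    Tm m q j i = Tn (1 / 16) (le3 R m) kp sg6 (mX m h) (mY m h) q i := by
  unfold Tm Tn Drt6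
  rw [Dpos_neck m h]

theorem tm_neck {j : L} {k : Fin 3} (h : R.pl j = Sum.inl k) (q : Cc R m) (i : Fin 6) :
    tm m q j i = ctr k + 1 / 16 * zz (mX m h) (mY m h) q -
      rts (1 / 16) ctr (le3 R m) kp sg6 q i := by
  unfold tm
  rw [pos_ppt_neck m h]
  rfl

variable {m}

/-- off helper214's discs, for one mark -/
def OffM (q : Cc R m) (j : L) : Prop := ∀ i, hhs (rt6 R m q) i / 64 ≤ ‖tm m q j i‖ ^ 2

theorem neckPt_of_off {q : Cc R m} (A : Adm m q) {j : L} {k : Fin 3} (h : R.pl j = Sum.inl k)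
    (ho : OffM q j) : NeckPt (1 / 16) ctr (le3 R m) kp sg6 k (mX m h) (mY m h) q 1 :=
  neckPt A h fun i hi => by
    have := off_of_disc A (ho i)
    rwa [hi] at this

/-- **neck marks, all directions** -/
theorem neck_bdd {q : Cc R m} (A : Adm m q) {j : L} {k : Fin 3} (h : R.pl j = Sum.inl k)
    (ho : OffM q j) {w : Cc R m} (D : Dir1 (le3 R m) (mX m h) (mY m h) w) :
    H738.Near (tm m q j) (fun i => Tm m q j i w) 0 (10 + 3 / 2) := by
  have k1 := (neckPt_of_off A h ho).bdd D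
  intro i
  have k2 := k1 i
  simp only [← tm_neck, ← Tm_neck, div_one] at k2
  exact k2

/-- **neck marks, rigid directions, first half** -/
theorem neck_rigid_X {q : Cc R m} (A : Adm m q) {j : L} {k : Fin 3} (h : R.pl j = Sum.inl k)
    (ho : OffM q j) {w : Cc R m} (D : Dir1 (le3 R m) (mX m h) (mY m h) w) :
    H738.Near (tm m q j) (fun i => Tm m q j i w) (mX m h w)
      (8 * Real.exp (wreg.dep m q k (rkF R h) - q.2.2.1 k / 2) +
        5 / 2 * (Real.exp (-wreg.dep m q k (rkF R h)) +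
          Real.exp (-(q.2.2.1 k - wreg.dep m q k (rkF R h)))) ^ 2) := by
  obtain ⟨i₀, hi₀⟩ : ∃ i, kp i = k := by
    fin_cases k
    · exact ⟨0, by decide⟩
    · exact ⟨2, by decide⟩
    · exact ⟨4, by decide⟩
  have k1 := (neckPt_of_off A h ho).rigid_X D hi₀
  rw [norm_qq_mark h, norm_X_mark h, norm_Y_mark h] at k1
  intro i
  have k2 := k1 i
  simp only [← tm_neck, ← Tm_neck] at k2
  norm_num at k2 ⊢
  exact k2

/-- **neck marks, rigid directions, second half** -/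
theorem neck_rigid_Y {q : Cc R m} (A : Adm m q) {j : L} {k : Fin 3} (h : R.pl j = Sum.inl k)
    (ho : OffM q j) {w : Cc R m} (D : Dir1 (le3 R m) (mX m h) (mY m h) w) :
    H738.Near (tm m q j) (fun i => Tm m q j i w) (mY m h w)
      (8 * Real.exp (q.2.2.1 k / 2 - wreg.dep m q k (rkF R h)) +
        5 / 2 * (Real.exp (-wreg.dep m q k (rkF R h)) +
          Real.exp (-(q.2.2.1 k - wreg.dep m q k (rkF R h)))) ^ 2) := by
  obtain ⟨i₀, hi₀⟩ : ∃ i, kp i = k := by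
    fin_cases k
    · exact ⟨0, by decide⟩
    · exact ⟨2, by decide⟩
    · exact ⟨4, by decide⟩
  have k1 := (neckPt_of_off A h ho).rigid_Y D hi₀
  rw [norm_qq_mark h, norm_X_mark h, norm_Y_mark h, ← Real.exp_neg, neg_sub] at k1
  intro i
  have k2 := k1 i
  simp only [← tm_neck, ← Tm_neck] at k2
  norm_num at k2 ⊢
  exact k2

/-- **neck marks on the side of the first core** -/
theorem neck_still_X {q : Cc R m} (A : Adm m q) {j : L} {k : Fin 3} (h : R.pl j = Sum.inl k)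
    (ho : OffM q j) {w : Cc R m} (D : Dir1 (le3 R m) (mX m h) (mY m h) w) (h0 : mX m h w = 0)
    {r : ℝ} (hr : ∀ l, Real.exp (-(q.2.2.1 l) / 2) ≤ r) :
    H738.Near (tm m q j) (fun i => Tm m q j i w) 0
      (8 * Real.exp (wreg.dep m q k (rkF R h) - q.2.2.1 k / 2) +
        (Real.exp (-(q.2.2.1 k - wreg.dep m q k (rkF R h))) + r)) := by
  have k1 := (neckPt_of_off A h ho).still_X D h0 (r := r) (fun l => by
    have h1 := hr l
    have h2 : 0 ≤ Real.exp (-(q.2.2.1 l) / 2) := (Real.exp_pos _).le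
    change ‖hd (1 / 16) (le3 R m) l q‖ ≤ r
    rw [norm_hd_eq]; linarith)
  rw [norm_qq_mark h, norm_Y_mark h] at k1
  intro i
  have k2 := k1 i
  simp only [← tm_neck, ← Tm_neck, div_one] at k2
  exact k2

/-- **neck marks on the side of the second core** -/
theorem neck_still_Y {q : Cc R m} (A : Adm m q) {j : L} {k : Fin 3} (h : R.pl j = Sum.inl k)
    (ho : OffM q j) {w : Cc R m} (D : Dir1 (le3 R m) (mX m h) (mY m h) w) (h0 : mY m h w = 0)
    {r : ℝ} (hr : ∀ l, Real.exp (-(q.2.2.1 l) / 2) ≤ r) :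
    H738.Near (tm m q j) (fun i => Tm m q j i w) 0
      (8 * Real.exp (q.2.2.1 k / 2 - wreg.dep m q k (rkF R h)) +
        (Real.exp (-wreg.dep m q k (rkF R h)) + r)) := by
  have k1 := (neckPt_of_off A h ho).still_Y D h0 (r := r) (fun l => by
    have h1 := hr l
    have h2 : 0 ≤ Real.exp (-(q.2.2.1 l) / 2) := (Real.exp_pos _).le
    change ‖hd (1 / 16) (le3 R m) l q‖ ≤ r
    rw [norm_hd_eq]; linarith)
  rw [norm_qq_mark h, norm_X_mark h, ← Real.exp_neg, neg_sub] at k1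
  intro i
  have k2 := k1 i
  simp only [← tm_neck, ← Tm_neck, div_one] at k2
  exact k2

/-- **core marks (finite zone)** -/
theorem core_near {q : Cc R m} {j : L} {s : Bool} (h : R.pl j = Sum.inr s)
    {δ : ℝ} (hδ : 0 < δ) (hfar : ∀ i, δ ≤ ‖tm m q j i‖) {w : Cc R m}
    (hw : ∀ l, ‖le3 R m l w‖ ≤ 1) {r : ℝ} (hr : ∀ l, Real.exp (-(q.2.2.1 l) / 2) ≤ r) :
    H738.Near (tm m q j) (fun i => Tm m q j i w) 0
      ((‖w.2.2.2.2 ⟨j, by simp [h]⟩‖ + r) / δ) := by
  have hr0 : 0 ≤ r := (Real.exp_pos _).le.trans (hr 0)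
  have N : CorePt (1 / 16) ctr (le3 R m) kp sg6 (R.pos (ppt R m q) j) q δ :=
    ⟨sg6_sq, hδ, hfar⟩
  have k1 := N.near (x' := Dpos m q j) (w := w) hw (r := r) (fun l => by
    have h1 := hr l
    have h2 : 0 ≤ Real.exp (-(q.2.2.1 l) / 2) := (Real.exp_pos _).le
    rw [norm_hd_eq]; linarith) hr0
  have e : Dpos m q j w = w.2.2.2.2 ⟨j, by simp [h]⟩ := by
    rw [Dpos_core m h]; rfl
  rw [e] at k1
  intro i
  have k2 := k1 i
  simp only [zero_mul, sub_zero] at k2 ⊢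
  have e2 : Tm m q j i w = w.2.2.2.2 ⟨j, by simp [h]⟩ - Drt (1 / 16) (le3 R m) kp sg6 q i w := by
    unfold Tm Drt6
    rw [ContinuousLinearMap.sub_apply, e]
  rw [e2]
  exact k2

end

end Vale.Agent.P273.H738
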