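import Vale.Agent.P273.H738.Marks

/-!
# P273, LIM-G3G: logarithmic derivatives, refined (general directions)
-/

open Filter Topology
open Complex (exp)

noncomputable section

namespace Vale.Agent.P273.H738

section near

variable {ι : Type*} [Fintype ι]

theorem Near.mono {t t' : ι → ℂ} {ζ : ℂ} {ρ ρ' : ℝ} (h : Near t t' ζ ρ) (hρ : ρ ≤ ρ') :
    Near t t' ζ ρ' := by
  intro i
  have hsum : 0 ≤ ∑ j, (‖t j‖ ^ 2)⁻¹ := Finset.sum_nonneg fun j _ => by positivity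
  have h5 : 0 ≤ ‖t i‖ ^ 3 := by positivity
  exact (h i).trans (mul_le_mul_of_nonneg_right (mul_le_mul_of_nonneg_right hρ h5) hsum)

/-- change of the common logarithmic derivative -/
theorem Near.shift {t t' : ι → ℂ} {ζ ζ' : ℂ} {ρ a : ℝ} (h : Near t t' ζ ρ) (h0 : ∀ i, t i ≠ 0)
    (ha : ‖ζ - ζ'‖ ≤ a) : Near t t' ζ' (ρ + a) := by
  intro i
  have ha0 : 0 ≤ a := (norm_nonneg _).trans ha
  have h1 : ‖(ζ - ζ') * t i‖ ≤ a * ‖t i‖ ^ 3 * ∑ j, (‖t j‖ ^ 2)⁻¹ := by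
    refine near_of_le (h0 i) ?_ ha0
    rw [norm_mul]
    exact mul_le_mul_of_nonneg_right ha (norm_nonneg _)
  have e : t' i - ζ' * t i = (t' i - ζ * t i) + (ζ - ζ') * t i := by ring
  rw [e]
  calc _ ≤ ‖t' i - ζ * t i‖ + ‖(ζ - ζ') * t i‖ := norm_add_le _ _
    _ ≤ ρ * ‖t i‖ ^ 3 * (∑ j, (‖t j‖ ^ 2)⁻¹) + a * ‖t i‖ ^ 3 * ∑ j, (‖t j‖ ^ 2)⁻¹ :=
      add_le_add (h i) h1
    _ = _ := by ring

theorem near_zero {t t' : ι → ℂ} (h0 : ∀ i, t i ≠ 0) {ρ : ℝ} (hρ : 0 ≤ ρ)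
    (h : ∀ i, ‖t' i‖ ≤ ρ * ‖t i‖) : Near t t' 0 ρ := by
  intro i
  rw [zero_mul, sub_zero]
  exact near_of_le (h0 i) (h i) hρ

/-- a mark at distance at least `δ` from all roots -/
theorem near_far {t t' : ι → ℂ} {δ M : ℝ} (hδ : 0 < δ) (h : ∀ i, δ ≤ ‖t i‖)
    (h' : ∀ i, ‖t' i‖ ≤ M) : Near t t' 0 (M / δ) := by
  intro i
  have hM : 0 ≤ M := (norm_nonneg _).trans (h' i)
  rw [zero_mul, sub_zero]
  refine near_of_le (norm_pos_iff.1 (hδ.trans_le (h i))) ?_ (by positivity)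
  rw [div_mul_eq_mul_div, le_div_iff₀ hδ]
  exact mul_le_mul (h' i) (h i) hδ.le hM

theorem near_still {t t' : ι → ℂ} (h : ∀ i, t' i = 0) : Near t t' 0 0 := by
  intro i
  rw [h i]
  simp

end near

section

variable {E : Type*} [NormedAddCommGroup E] [NormedSpace ℝ E]
variable {K : Type*} {ι : Type*} [Fintype ι]
variable {c : ℂ} {e : K → ℂ} {le : K → E →L[ℝ] ℂ} {κ : ι → K} {s : ι → ℂ} {k : K} {lX lY : E →L[ℝ] ℂ}
  {p : E} {δ : ℝ}

/-- **the logarithmic derivative is that of `X`**, all terms -/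
theorem NeckPt.rig_X (N : NeckPt c e le κ s k lX lY p δ) {w : E} {j : ι} (hj : κ j = k) {D : ℝ}
    (hD : ∀ l, ‖H738.hd c le l p‖ * ‖le l w‖ ≤ D) :
    Near (fun i => e k + c * zz lX lY p - rts c e le κ s p i) (fun i => Tn c le κ s lX lY p i w) (lX w)
      (4 * ‖qq lX lY p‖ * ‖lX w - lY w‖ +
        (‖exp (lX p)‖ * ‖lX w‖ + ‖exp (lY p)‖ * ‖lY w‖ + D) / (2 * δ) +
        ‖lX w‖ / δ ^ 2 * (‖exp (lX p)‖ + ‖exp (lY p)‖) ^ 2) := by
  intro i
  have hδ := N.δpos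
  have hD0 : 0 ≤ D := le_trans (by positivity) (hD k)
  have hsum : 0 ≤ ∑ j, (‖e k + c * zz lX lY p - rts c e le κ s p j‖ ^ 2)⁻¹ :=
    Finset.sum_nonneg fun j _ => by positivity
  have hA : 0 ≤ 4 * ‖qq lX lY p‖ * ‖lX w - lY w‖ := by positivity
  have hB : 0 ≤ (‖exp (lX p)‖ * ‖lX w‖ + ‖exp (lY p)‖ * ‖lY w‖ + D) / (2 * δ) := by positivity
  have hC : 0 ≤ ‖lX w‖ / δ ^ 2 * (‖exp (lX p)‖ + ‖exp (lY p)‖) ^ 2 := by positivity
  have h5 : 0 ≤ ‖e k + c * zz lX lY p - rts c e le κ s p i‖ ^ 3 := by positivity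
  by_cases hi : κ i = k
  · have h1 := LD_sub_X lX lY (N.sq i) (by norm_num : (0 : ℝ) < 1 / 4) (N.kap hi) w
    have h3 : ‖Tn c le κ s lX lY p i w - lX w * (e k + c * zz lX lY p - rts c e le κ s p i)‖ ≤
        4 * ‖qq lX lY p‖ * ‖lX w - lY w‖ * ‖e k + c * zz lX lY p - rts c e le κ s p i‖ := by
      rw [Tn_eq N.sum (N.sq i) hi]
      have e1 : (e k + c * zz lX lY p - rts c e le κ s p i) * LD lX lY (s i) p w -
          lX w * (e k + c * zz lX lY p - rts c e le κ s p i) =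
          (LD lX lY (s i) p w - lX w) * (e k + c * zz lX lY p - rts c e le κ s p i) := by ring
      rw [e1, norm_mul]
      refine mul_le_mul_of_nonneg_right ?_ (norm_nonneg _)
      norm_num at h1
      linarith
    refine (near_of_le (t := fun i => e k + c * zz lX lY p - rts c e le κ s p i) (N.ne i) h3
      hA).trans ?_
    refine mul_le_mul_of_nonneg_right ?_ hsum
    exact mul_le_mul_of_nonneg_right (by linarith) h5
  · have h1 := N.norm_Tn_le i w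
    have h2 := N.far i hi
    have h3 : ‖Tn c le κ s lX lY p i w‖ ≤
        (‖exp (lX p)‖ * ‖lX w‖ + ‖exp (lY p)‖ * ‖lY w‖ + D) / (2 * δ) *
          ‖e k + c * zz lX lY p - rts c e le κ s p i‖ := by
      refine h1.trans ?_
      rw [div_mul_eq_mul_div, le_div_iff₀ (by positivity)]
      have h4 := hD (κ i)
      have h6 : 0 ≤ ‖exp (lX p)‖ * ‖lX w‖ + ‖exp (lY p)‖ * ‖lY w‖ := by positivity
      have h7 : (‖exp (lX p)‖ * ‖lX w‖ + ‖exp (lY p)‖ * ‖lY w‖ +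
          ‖H738.hd c le (κ i) p‖ * ‖le (κ i) w‖) * δ ≤
          (‖exp (lX p)‖ * ‖lX w‖ + ‖exp (lY p)‖ * ‖lY w‖ + D) *
            ‖e k + c * zz lX lY p - rts c e le κ s p i‖ :=
        mul_le_mul (by linarith) h2 hδ.le (by positivity)
      linarith
    have k1 := near_of_le (t := fun i => e k + c * zz lX lY p - rts c e le κ s p i) (N.ne i) h3 hB
    have k2 : ‖lX w * (e k + c * zz lX lY p - rts c e le κ s p i)‖ ≤
        (‖lX w‖ / δ ^ 2 * ‖e k + c * zz lX lY p - rts c e le κ s p j‖ ^ 2) *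
          ‖e k + c * zz lX lY p - rts c e le κ s p i‖ ^ 3 *
          ∑ j, (‖e k + c * zz lX lY p - rts c e le κ s p j‖ ^ 2)⁻¹ := by
      refine near_of_far (t := fun i => e k + c * zz lX lY p - rts c e le κ s p i) (j := j) (N.ne j) hδ
        h2 ?_ (norm_nonneg _)
      rw [norm_mul]
    have h6 := N.near_le hj
    have k3 : (‖lX w‖ / δ ^ 2 * ‖e k + c * zz lX lY p - rts c e le κ s p j‖ ^ 2) *
          ‖e k + c * zz lX lY p - rts c e le κ s p i‖ ^ 3 *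
          (∑ j, (‖e k + c * zz lX lY p - rts c e le κ s p j‖ ^ 2)⁻¹) ≤
        (‖lX w‖ / δ ^ 2 * (‖exp (lX p)‖ + ‖exp (lY p)‖) ^ 2) *
          ‖e k + c * zz lX lY p - rts c e le κ s p i‖ ^ 3 *
          (∑ j, (‖e k + c * zz lX lY p - rts c e le κ s p j‖ ^ 2)⁻¹) := by
      refine mul_le_mul_of_nonneg_right ?_ hsum
      refine mul_le_mul_of_nonneg_right ?_ h5
      gcongr
    have k4 : 0 ≤ 4 * ‖qq lX lY p‖ * ‖lX w - lY w‖ *
        ‖e k + c * zz lX lY p - rts c e le κ s p i‖ ^ 3 *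
          (∑ j, (‖e k + c * zz lX lY p - rts c e le κ s p j‖ ^ 2)⁻¹) :=
      mul_nonneg (mul_nonneg hA h5) hsum
    refine (norm_sub_le _ _).trans ?_
    refine (add_le_add k1 (k2.trans k3)).trans ?_
    linarith

omit [Fintype ι] in
/-- exchange of the two sides of the neck -/
theorem NeckPt.symm (N : NeckPt c e le κ s k lX lY p δ) : NeckPt c e le κ s k lY lX p δ :=
  { c0 := N.c0, c1 := N.c1, sq := N.sq, sum := fun q => by rw [add_comm]; exact N.sum q,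
    hX := N.hY, hY := N.hX, hd := N.hd, δpos := N.δpos,
    far := fun i hi => by rw [zz_symm]; exact N.far i hi,
    off := fun i hi => by rw [zz_symm]; exact N.off i hi }

omit [Fintype ι] in
theorem Tn_symm (i : ι) (w : E) : Tn c le κ s lY lX p i w = Tn c le κ s lX lY p i w := by
  simp only [Tn, sub_apply, smul_apply, Dz_apply]
  ring_nf

/-- **the logarithmic derivative is that of `Y`**, all terms -/
theorem NeckPt.rig_Y (N : NeckPt c e le κ s k lX lY p δ) {w : E} {j : ι} (hj : κ j = k) {D : ℝ}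
    (hD : ∀ l, ‖H738.hd c le l p‖ * ‖le l w‖ ≤ D) :
    Near (fun i => e k + c * zz lX lY p - rts c e le κ s p i) (fun i => Tn c le κ s lX lY p i w) (lY w)
      (4 * ‖qq lX lY p‖⁻¹ * ‖lX w - lY w‖ +
        (‖exp (lX p)‖ * ‖lX w‖ + ‖exp (lY p)‖ * ‖lY w‖ + D) / (2 * δ) +
        ‖lY w‖ / δ ^ 2 * (‖exp (lX p)‖ + ‖exp (lY p)‖) ^ 2) := by
  have k1 := N.symm.rig_X hj hD
  simp only [Tn_symm, zz_symm lX lY, qq_symm lX lY, norm_inv] at k1
  rw [norm_sub_rev (lY w), add_comm ‖exp (lY p)‖ ‖exp (lX p)‖,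
    add_comm (‖exp (lY p)‖ * ‖lY w‖)] at k1
  exact k1

/-- the size of a neck mark -/
def sz (lX lY : E →L[ℝ] ℂ) (p : E) : ℝ := ‖exp (lX p)‖ + ‖exp (lY p)‖

theorem sz_pos (lX lY : E →L[ℝ] ℂ) (p : E) : 0 < sz lX lY p :=
  add_pos (norm_pos_iff.2 (Complex.exp_ne_zero _)) (norm_pos_iff.2 (Complex.exp_ne_zero _))

omit [Fintype ι] in
/-- the distance to the near roots from below -/
theorem NeckPt.lower (N : NeckPt c e le κ s k lX lY p δ) {i : ι} (hi : κ i = k) :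
    ‖c‖ * sz lX lY p / 64 ≤ ‖e k + c * zz lX lY p - rts c e le κ s p i‖ := by
  have h1 : ‖e k + c * zz lX lY p - rts c e le κ s p i‖ =
      ‖c‖ * (‖exp (lX p)‖ * ‖1 - s i * qq lX lY p‖ ^ 2 / 2) := by
    rw [t_near N.sum hi, norm_mul, norm_geo lX lY (N.sq i)]
  have h2 : ‖e k + c * zz lX lY p - rts c e le κ s p i‖ =
      ‖c‖ * (‖exp (lY p)‖ * ‖1 - s i * (qq lX lY p)⁻¹‖ ^ 2 / 2) := by
    have h3 := norm_geo lY lX (N.sq i) p
    rw [zz_symm, dd_symm, qq_symm] at h3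
    rw [t_near N.sum hi, norm_mul, h3]
  have h3 := N.kap hi
  have h4 := N.kap' hi
  have h5 : (1 / 4 : ℝ) ^ 2 ≤ ‖1 - s i * qq lX lY p‖ ^ 2 := by gcongr
  have h6 : (1 / 4 : ℝ) ^ 2 ≤ ‖1 - s i * (qq lX lY p)⁻¹‖ ^ 2 := by gcongr
  have h7 : ‖c‖ * (‖exp (lX p)‖ * (1 / 4) ^ 2 / 2) ≤
      ‖e k + c * zz lX lY p - rts c e le κ s p i‖ := by rw [h1]; gcongr
  have h8 : ‖c‖ * (‖exp (lY p)‖ * (1 / 4) ^ 2 / 2) ≤
      ‖e k + c * zz lX lY p - rts c e le κ s p i‖ := by rw [h2]; gcongr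
  unfold sz
  linarith

omit [Fintype ι] in
/-- **the sum of the distances to the two roots** -/
theorem NeckPt.sum_eq (N : NeckPt c e le κ s k lX lY p δ) {i i' : ι} (hi : κ i = k) (hi' : κ i' = k)
    (hs : s i' = -s i) :
    ‖e k + c * zz lX lY p - rts c e le κ s p i‖ + ‖e k + c * zz lX lY p - rts c e le κ s p i'‖ =
      ‖c‖ * sz lX lY p := by
  rw [t_near N.sum hi, norm_mul, norm_geo lX lY (N.sq i), t_near N.sum hi', norm_mul,
    norm_geo lX lY (N.sq i'), hs]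
  have h1 : ‖1 - s i * qq lX lY p‖ ^ 2 + ‖1 - -s i * qq lX lY p‖ ^ 2 =
      2 * (1 + ‖qq lX lY p‖ ^ 2) := by
    have h2 := parallelogram_law_with_norm ℝ (1 : ℂ) (s i * qq lX lY p)
    have h3 : ‖s i * qq lX lY p‖ = ‖qq lX lY p‖ := by rw [norm_mul, norm_sig (N.sq i), one_mul]
    rw [h3, norm_one] at h2
    rw [neg_mul, sub_neg_eq_add]
    nlinarith
  have h4 : ‖exp (lX p)‖ * ‖qq lX lY p‖ ^ 2 = ‖exp (lY p)‖ := by
    rw [← dd_mul_qq lX lY p, ← X_mul_qq lX lY p, norm_mul, norm_mul]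
    ring
  unfold sz
  rw [← h4]
  linear_combination (‖c‖ * ‖exp (lX p)‖ / 2) * h1

omit [Fintype ι] in
theorem NeckPt.lower' (N : NeckPt c e le κ s k lX lY p δ) (hδ : δ ≤ 1) (i : ι) :
    δ * ‖c‖ * sz lX lY p / 64 ≤ ‖e k + c * zz lX lY p - rts c e le κ s p i‖ := by
  have hδ0 := N.δpos
  have hs := sz_pos lX lY p
  by_cases hi : κ i = k
  · refine le_trans ?_ (N.lower hi)
    have h1 : δ * (‖c‖ * sz lX lY p) ≤ 1 * (‖c‖ * sz lX lY p) :=
      mul_le_mul_of_nonneg_right hδ (by positivity)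
    linarith
  · refine le_trans ?_ (N.far i hi)
    have h1 : sz lX lY p ≤ 2 := by
      have := N.hX; have := N.hY; unfold sz; linarith
    have h2 : ‖c‖ * sz lX lY p ≤ 1 * 2 := mul_le_mul N.c1 h1 hs.le zero_le_one
    have h3 : δ * (‖c‖ * sz lX lY p) ≤ δ * (1 * 2) := mul_le_mul_of_nonneg_left h2 hδ0.le
    linarith

/-- **a bound of all derivatives** -/
theorem NeckPt.near_bd (N : NeckPt c e le κ s k lX lY p δ) (hδ : δ ≤ 1) {w : E} {M : ℝ}
    (hM : ∀ i, ‖Tn c le κ s lX lY p i w‖ ≤ M) (hM0 : 0 ≤ M) :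
    Near (fun i => e k + c * zz lX lY p - rts c e le κ s p i) (fun i => Tn c le κ s lX lY p i w) 0
      (64 * M / (δ * ‖c‖ * sz lX lY p)) := by
  have hδ0 := N.δpos
  have hs := sz_pos lX lY p
  have hc : 0 < ‖c‖ := norm_pos_iff.2 N.c0
  refine near_zero N.ne (by positivity) fun i => ?_
  refine (hM i).trans ?_
  rw [div_mul_eq_mul_div, le_div_iff₀ (by positivity)]
  have h1 := N.lower' hδ i
  have h2 : M * (δ * ‖c‖ * sz lX lY p / 64) ≤
      M * ‖e k + c * zz lX lY p - rts c e le κ s p i‖ := mul_le_mul_of_nonneg_left h1 hM0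
  linarith

end

end Vale.Agent.P273.H738
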