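import Vale.Agent.P273.H738.Inst
import Vale.Agent.P273.H738.Rig
import Vale.Agent.P273.H562.AsyDefs
import Vale.Agent.P273.H578.CutG
import Vale.Agent.P273.H973.GaugeDef

/-!
# P273, LIM-G3G: the charts of helper562 (`AsyDefs`), the marks `PP` of helper973, `LogN` of
helper578, and the geometry of `Inst`
-/

open Filter Topology
open Complex (exp)

noncomputable section

namespace Vale.Agent.P273.H738

open H95 H732

section

variable (R : Region) (m : ∀ k, Fin (R.n k + 1))

theorem emb_eq (p : H562.Co R m) : H562.emb R m p = ppt R m p := rfl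

theorem rootsL_eq (p : H562.Co R m) : H562.rootsL p.2.2.1 p.2.2.2.1 = rt6 R m p := by
  funext i
  have e : ∀ l, hd (1 / 16) (le3 R m) l p =
      (1 / 16 : ℂ) * exp ((-(p.2.2.1 l : ℂ) + (p.2.2.2.1 l : ℂ) * Complex.I) / 2) := by
    intro l
    rw [hd, le3_eq]
  unfold H562.rootsL H828.th rt6 rts
  simp only [e]
  fin_cases i <;> simp [kp, sg6, ctr] <;> ring

theorem posE_eq (p : H562.Co R m) : H562.posE R m p = (rt6 R m p, fun j => R.pos (ppt R m p) j) := by
  unfold H562.posE
  rw [rootsL_eq, emb_eq]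

/-- the derivative of `posE` -/
def DposE (q : Cc R m) : Cc R m →L[ℝ] H95.E :=
  (ContinuousLinearMap.pi fun i => Drt6 R m q i).prod (ContinuousLinearMap.pi fun j => Dpos m q j)

theorem hasFDerivAt_posE (q : Cc R m) : HasFDerivAt (H562.posE R m) (DposE R m q) q := by
  have h1 : HasFDerivAt (fun q : Cc R m => fun i => rt6 R m q i)
      (ContinuousLinearMap.pi fun i => Drt6 R m q i) q :=
    hasFDerivAt_pi.2 fun i => hasFDerivAt_rt6 R m q i
  have h2 : HasFDerivAt (fun q : Cc R m => fun j => R.pos (ppt R m q) j)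
      (ContinuousLinearMap.pi fun j => Dpos m q j) q :=
    hasFDerivAt_pi.2 fun j => hasFDerivAt_pos m q j
  refine (h1.prodMk h2).congr_of_eventuallyEq (Eventually.of_forall fun p => ?_)
  exact posE_eq R m p

/-- the coordinate `x` of a mark -/
def xq (S : L → Bool) (q : Cc R m) (j : L) : ℂ := H973.Xp S (H562.posE R m q) j

variable {R}

theorem xq_near {S : L → Bool} {j : L} (h : S j = false) (q : Cc R m) :
    xq R m S q j = R.pos (ppt R m q) j := by
  simp [xq, H973.Xp, h, posE_eq]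

theorem xq_far {S : L → Bool} {j : L} (h : S j = true) (q : Cc R m) :
    xq R m S q j = (R.pos (ppt R m q) j)⁻¹ := by
  simp [xq, H973.Xp, h, posE_eq]

/-- its derivative -/
def Dxq (S : L → Bool) (q : Cc R m) (j : L) : Cc R m →L[ℝ] ℂ :=
  if S j then (-((R.pos (ppt R m q) j) ^ 2)⁻¹) • Dpos m q j else Dpos m q j

theorem hasFDerivAt_xq {S : L → Bool} {j : L} {q : Cc R m}
    (h : S j = true → R.pos (ppt R m q) j ≠ 0) :
    HasFDerivAt (fun q => xq R m S q j) (Dxq m S q j) q := by
  by_cases hS : S j = true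
  · have h1 : HasFDerivAt (fun q => (R.pos (ppt R m q) j)⁻¹) (Dxq m S q j) q := by
      rw [Dxq, if_pos hS]
      exact (hasDerivAt_inv (h hS)).comp_hasFDerivAt q (hasFDerivAt_pos m q j)
    refine h1.congr_of_eventuallyEq (Eventually.of_forall fun p => ?_)
    exact xq_far m hS p
  · have hS' : S j = false := by simpa using hS
    rw [Dxq, if_neg hS]
    refine (hasFDerivAt_pos m q j).congr_of_eventuallyEq (Eventually.of_forall fun p => ?_)
    exact xq_near m hS' p

/-- the distance to the root `i` -/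
def tq (S : L → Bool) (q : Cc R m) (j : L) (i : Fin 6) : ℂ := xq R m S q j - rt6 R m q i

/-- its derivative -/
def Tq (S : L → Bool) (q : Cc R m) (j : L) (i : Fin 6) : Cc R m →L[ℝ] ℂ :=
  Dxq m S q j - Drt6 R m q i

theorem hasFDerivAt_tq {S : L → Bool} {j : L} {q : Cc R m}
    (h : S j = true → R.pos (ppt R m q) j ≠ 0) (i : Fin 6) :
    HasFDerivAt (fun q => tq m S q j i) (Tq m S q j i) q :=
  (hasFDerivAt_xq m h).sub (hasFDerivAt_rt6 R m q i)

/-- the derivative of the difference of two marks -/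
theorem hasFDerivAt_xq_sub {S : L → Bool} {j j' : L} {q : Cc R m}
    (h : S j = true → R.pos (ppt R m q) j ≠ 0) (h' : S j' = true → R.pos (ppt R m q) j' ≠ 0) :
    HasFDerivAt (fun q => xq R m S q j - xq R m S q j') (Dxq m S q j - Dxq m S q j') q :=
  (hasFDerivAt_xq m h).sub (hasFDerivAt_xq m h')

/-- **the form used by helper578** -/
theorem logN_of_near {S : L → Bool} {t : Bool} {k : Fin 7} {q : Cc R m}
    (h : S (k, t) = true → R.pos (ppt R m q) (k, t) ≠ 0) {v : Cc R m} {ζ : ℂ} {ρ : ℝ}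
    (hN : Near (tq m S q (k, t)) (fun i => Tq m S q (k, t) i v) ζ ρ) :
    H578.LogN (fun p => (H562.posE R m p).1)
      (fun p => H973.PP S t (H562.posE R m p) (H562.shE R m S p) k) q v ζ ρ := by
  have e0 : ∀ (i : Fin 6) (p : Cc R m), (H973.PP S t (H562.posE R m p) (H562.shE R m S p) k).1 -
      (H562.posE R m p).1 i = tq m S p (k, t) i := by
    intro i p
    unfold tq xq H973.PP
    rw [posE_eq]
  intro i
  have e1 : fderiv ℝ (fun p : Cc R m => (H973.PP S t (H562.posE R m p) (H562.shE R m S p) k).1 -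
      (H562.posE R m p).1 i) q v = Tq m S q (k, t) i v := by
    rw [show (fun p : Cc R m => (H973.PP S t (H562.posE R m p) (H562.shE R m S p) k).1 -
      (H562.posE R m p).1 i) = fun p => tq m S p (k, t) i from funext (e0 i)]
    rw [(hasFDerivAt_tq m h i).fderiv]
  have k1 := hN i
  rw [e1]
  unfold H562.qs
  simp only [e0]
  exact k1

end

/-! ### points of helper562's `Adm` -/

section

variable {R : Region} {m : ∀ k, Fin (R.n k + 1)} {S : L → Bool} {N₀ : ℝ} {q : Cc R m}

theorem adm_of (A : H562.Adm R m S N₀ q) (h0 : 0 ≤ N₀) : Adm m q where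
  inr := A.1
  ul k := (wreg R.n m).ul_nonneg A.1 k (h0.trans (A.2.1 k))

theorem norm_hd_small (A : H562.Adm R m S N₀ q) (h6 : 6 ≤ N₀) (l : Fin 3) :
    ‖hd (1 / 16) (le3 R m) l q‖ ≤ 1 / 256 := by
  rw [norm_hd_eq]
  have h1 := A.2.1 l
  have h2 : Real.exp (-(q.2.2.1 l) / 2) ≤ Real.exp (-3) := by
    rw [Real.exp_le_exp]; linarith
  have h3 : Real.exp (-3) ≤ 1 / 16 := by
    rw [Real.exp_neg, inv_le_comm₀ (Real.exp_pos _) (by norm_num)]
    have e : Real.exp 3 = Real.exp 1 ^ 3 := by rw [← Real.exp_nat_mul]; norm_num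
    rw [e]
    have h4 : (2.7 : ℝ) ≤ Real.exp 1 := by have := Real.exp_one_gt_d9; linarith
    calc ((1 / 16 : ℝ))⁻¹ ≤ 2.7 ^ 3 := by norm_num
      _ ≤ _ := by gcongr
  linarith

end

end Vale.Agent.P273.H738
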