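import Vale.Agent.P273.H738.Bri

/-!
# P273, LIM-G3G: logarithmic derivatives of the distances to the roots in the directions of the
log chart, for all marks
-/

open Filter Topology
open Complex (exp)

noncomputable section

namespace Vale.Agent.P273.H738

open H95 H732

/-! ### elementary bounds -/

theorem mul_exp_le {t : ℝ} : t * Real.exp (-t) ≤ 1 := by
  have h := Real.add_one_le_exp t
  rw [Real.exp_neg, ← div_eq_mul_inv, div_le_one (Real.exp_pos _)]
  linarith

section marks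

variable {R : Region} {m : ∀ k, Fin (R.n k + 1)} {S : L → Bool} {N₀ : ℝ} {q : Cc R m}

theorem S_neck (hS : H732.FarOk R S) {j : L} {k : Fin 3} (h : R.pl j = Sum.inl k) : S j = false := by
  by_contra h1
  have h2 := hS j (by simpa using h1)
  rw [h] at h2
  simp at h2

theorem tq_neck (hS : H732.FarOk R S) {j : L} {k : Fin 3} (h : R.pl j = Sum.inl k) (q : Cc R m)
    (i : Fin 6) : tq m S q j i = ctr k + 1 / 16 * zz (mX m h) (mY m h) q -
      rts (1 / 16) ctr (le3 R m) kp sg6 q i := by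
  unfold tq
  rw [xq_near m (S_neck hS h), pos_ppt_neck m h]
  rfl

theorem Tq_neck (hS : H732.FarOk R S) {j : L} {k : Fin 3} (h : R.pl j = Sum.inl k) (q : Cc R m)
    (i : Fin 6) : Tq m S q j i = Tn (1 / 16) (le3 R m) kp sg6 (mX m h) (mY m h) q i := by
  have h1 : Dxq m S q j = Dpos m q j := by
    unfold Dxq
    rw [S_neck hS h]
    rfl
  unfold Tq
  rw [h1, ← Tm_neck]
  rfl

/-- off the discs round the roots -/
def Off8 (m : ∀ k, Fin (R.n k + 1)) (S : L → Bool) (q : Cc R m) (j : L) : Prop :=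
  ∀ i, 1 / 8 * ‖hd (1 / 16) (le3 R m) (kp i) q‖ ≤ ‖tq m S q j i‖

theorem neckPt_off8 (A : H562.Adm R m S N₀ q) (h0 : 0 ≤ N₀) (hS : H732.FarOk R S) {j : L}
    {k : Fin 3} (h : R.pl j = Sum.inl k) (ho : Off8 m S q j) :
    NeckPt (1 / 16) ctr (le3 R m) kp sg6 k (mX m h) (mY m h) q 1 :=
  neckPt (adm_of A h0) h fun i hi => by
    have h1 := ho i
    rw [hi] at h1
    unfold tq at h1
    rwa [xq_near m (S_neck hS h)] at h1

/-- the two roots of a neck -/
theorem exists_pair (k : Fin 3) : ∃ i i' : Fin 6, kp i = k ∧ kp i' = k ∧ sg6 i' = -sg6 i ∧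
    ∀ i'', kp i'' = k → i'' = i ∨ i'' = i' := by
  fin_cases k
  · exact ⟨0, 1, by decide, by decide, by simp [sg6], by decide⟩
  · exact ⟨2, 3, by decide, by decide, by simp [sg6], by decide⟩
  · exact ⟨4, 5, by decide, by decide, by simp [sg6], by decide⟩

/-! ### core marks -/

/-- the index of a core mark -/
def cm {j : L} {s : Bool} (h : R.pl j = Sum.inr s) : R.Cm := ⟨j, by simp [h]⟩

theorem Dpos_cm {j : L} {s : Bool} (h : R.pl j = Sum.inr s) (w : Cc R m) :
    Dpos m q j w = w.2.2.2.2 (cm h) := by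
  rw [Dpos_core m h]
  rfl

theorem norm_ctr_le (k : Fin 3) : ‖ctr k‖ ≤ 11 / 2 := by
  have e : ctr k = ((2 * ((k : ℕ) : ℝ) + 3 / 2 : ℝ) : ℂ) := by unfold ctr; push_cast; ring
  rw [e, Complex.norm_real, Real.norm_eq_abs, abs_of_nonneg (by positivity)]
  have h1 : ((k : ℕ) : ℝ) ≤ 2 := by exact_mod_cast Nat.lt_succ_iff.1 k.2
  linarith

/-- core marks are far from the roots -/
theorem core_lower (A : H562.Adm R m S N₀ q) (h6 : 6 ≤ N₀) {j : L} {s : Bool}
    (h : R.pl j = Sum.inr s) (h0 : S j = true → R.pos (ppt R m q) j ≠ 0) (i : Fin 6) :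
    1 / 128 ≤ ‖tq m S q j i‖ := by
  have hz := A.2.2.2.1
  unfold H975.zone at hz
  have h1 := hz (cm h) (Set.mem_univ _)
  beta_reduce at h1
  have h2 := norm_hd_small A h6 (kp i)
  have h3 : ‖sg6 i * hd (1 / 16) (le3 R m) (kp i) q‖ ≤ 1 / 256 := by
    rw [norm_mul, norm_sig (sg6_sq i), one_mul]; exact h2
  have hpos : R.pos (ppt R m q) j = q.2.2.2.2 (cm h) := pos_ppt_core m h q
  by_cases hS : S j = true
  · rw [if_pos (show S (cm h).1 = true from hS), mem_closedBall_zero_iff] at h1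
    have h4 := h0 hS
    unfold tq
    rw [xq_far m hS]
    rw [← hpos] at h1
    have h5 : (11 : ℝ) ≤ ‖(R.pos (ppt R m q) j)⁻¹‖ := by
      rw [norm_inv]
      rw [le_inv_comm₀ (by norm_num) (norm_pos_iff.2 h4)]
      exact h1
    have h6 : ‖rt6 R m q i‖ ≤ 6 := by
      unfold rt6 rts
      refine (norm_add_le _ _).trans ?_
      have := norm_ctr_le (kp i)
      linarith
    have h7 := norm_sub_norm_le ((R.pos (ppt R m q) j)⁻¹) (rt6 R m q i)
    linarith
  · have hS' : S j = false := by simpa using hS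
    rw [if_neg (show ¬ S (cm h).1 = true from hS)] at h1
    have h4 := h1.2 (kp i)
    unfold tq
    rw [xq_near m hS', hpos]
    have e : q.2.2.2.2 (cm h) - rt6 R m q i = (q.2.2.2.2 (cm h) - ctr (kp i)) -
        sg6 i * hd (1 / 16) (le3 R m) (kp i) q := by
      unfold rt6 rts; ring
    rw [e]
    have h7 := norm_sub_norm_le (q.2.2.2.2 (cm h) - ctr (kp i))
      (sg6 i * hd (1 / 16) (le3 R m) (kp i) q)
    linarith

theorem norm_Dxq_core {j : L} {s : Bool} (hc : R.pl j = Sum.inr s) {X₁ : ℝ} (hX1 : 1 ≤ X₁) (hX : ‖xq R m S q j‖ ≤ X₁) (w : Cc R m) :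
    ‖Dxq m S q j w‖ ≤ X₁ ^ 2 * ‖w.2.2.2.2 (cm hc)‖ := by
  have hw := norm_nonneg (w.2.2.2.2 (cm hc))
  by_cases hS : S j = true
  · rw [xq_far m hS, norm_inv] at hX
    rw [Dxq, if_pos hS]
    have e : ((-((R.pos (ppt R m q) j) ^ 2)⁻¹) • Dpos m q j) w =
        -((R.pos (ppt R m q) j) ^ 2)⁻¹ * w.2.2.2.2 (cm hc) := by
      rw [← Dpos_cm hc]
      rfl
    rw [e, norm_mul, norm_neg, norm_inv, norm_pow, ← inv_pow]
    gcongr
  · rw [Dxq, if_neg hS, Dpos_cm hc]
    have h1 : (1 : ℝ) ≤ X₁ ^ 2 := one_le_pow₀ hX1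
    nlinarith

/-- core marks, any direction -/
theorem core_any (A : H562.Adm R m S N₀ q) (h6 : 6 ≤ N₀) {j : L} {s : Bool}
    (hc : R.pl j = Sum.inr s) (h0 : S j = true → R.pos (ppt R m q) j ≠ 0) {X₁ : ℝ} (hX1 : 1 ≤ X₁)
    (hX : ‖xq R m S q j‖ ≤ X₁) {w : Cc R m} {D : ℝ}
    (hD : ∀ l, ‖hd (1 / 16) (le3 R m) l q‖ * ‖le3 R m l w‖ ≤ D) :
    Near (tq m S q j) (fun i => Tq m S q j i w) 0
      (128 * (X₁ ^ 2 * ‖w.2.2.2.2 (cm hc)‖ + D)) := by
  have h1 := near_far (t := tq m S q j) (t' := fun i => Tq m S q j i w) (δ := 1 / 128)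
    (M := X₁ ^ 2 * ‖w.2.2.2.2 (cm hc)‖ + D) (by norm_num) (core_lower A h6 hc h0) (fun i => ?_)
  · refine h1.mono (le_of_eq ?_)
    ring
  · have h2 := norm_Dxq_core hc hX1 hX w
    have h3 := norm_Drt_le (1 / 16) (le3 R m) kp sg6_sq q i w
    have h4 := hD (kp i)
    have h5 : 0 ≤ ‖hd (1 / 16) (le3 R m) (kp i) q‖ * ‖le3 R m (kp i) w‖ := by positivity
    have e : Tq m S q j i w = Dxq m S q j w - Drt (1 / 16) (le3 R m) kp sg6 q i w := rfl
    have h6 := norm_sub_le (Dxq m S q j w) (Drt (1 / 16) (le3 R m) kp sg6 q i w)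
    rw [e]
    linarith

/-! ### neck marks: transfer -/

theorem near_neck (hS : H732.FarOk R S) {j : L} {k : Fin 3} (h : R.pl j = Sum.inl k) {w : Cc R m}
    {ζ : ℂ} {ρ : ℝ}
    (H : Near (fun i => ctr k + 1 / 16 * zz (mX m h) (mY m h) q -
      rts (1 / 16) ctr (le3 R m) kp sg6 q i)
      (fun i => Tn (1 / 16) (le3 R m) kp sg6 (mX m h) (mY m h) q i w) ζ ρ) :
    Near (tq m S q j) (fun i => Tq m S q j i w) ζ ρ := by
  intro i
  have k1 := H i
  simp only [← tq_neck hS h, ← Tq_neck hS h] at k1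
  exact k1

theorem pos_ne_of_neck (hS : H732.FarOk R S) {j : L} {k : Fin 3} (h : R.pl j = Sum.inl k) :
    S j = true → R.pos (ppt R m q) j ≠ 0 := by
  intro h1
  rw [S_neck hS h] at h1
  exact absurd h1 (by simp)

/-- **(B1)** all coordinate directions -/
theorem near_vec (A : H562.Adm R m S N₀ q) (h6 : 6 ≤ N₀) (hS : H732.FarOk R S) {j : L}
    (ho : Off8 m S q j) (h0 : S j = true → R.pos (ppt R m q) j ≠ 0) {X₁ : ℝ} (hX1 : 1 ≤ X₁)
    (hX : ‖xq R m S q j‖ ≤ X₁) (d : (wreg R.n m).Dir R.Cm) :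
    Near (tq m S q j) (fun i => Tq m S q j i ((wreg R.n m).vec d)) 0 (128 * (X₁ ^ 2 + 1)) := by
  have h1 : (1 : ℝ) ≤ X₁ ^ 2 := one_le_pow₀ hX1
  cases h : R.pl j with
  | inl k =>
    have N := neckPt_off8 A (by linarith) hS h ho
    refine near_neck hS h ((N.bdd (dir1_vec h d)).mono ?_)
    norm_num
    linarith
  | inr s =>
    have hD : ∀ l, ‖hd (1 / 16) (le3 R m) l q‖ * ‖le3 R m l ((wreg R.n m).vec d)‖ ≤ 1 := by
      intro l
      have h2 := norm_hd_small A h6 l
      have h3 : ‖le3 R m l ((wreg R.n m).vec d)‖ ≤ 1 := (wreg R.n m).norm_lS_vec_le _ d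
      have := norm_nonneg (le3 R m l ((wreg R.n m).vec d))
      have := norm_nonneg (hd (1 / 16) (le3 R m) l q)
      nlinarith
    refine (core_any A h6 h h0 hX1 hX hD).mono ?_
    have h4 : ‖((wreg R.n m).vec d).2.2.2.2 (cm h)‖ ≤ 1 := by
      cases d with
      | u f => simp [Reg.vec]
      | ph f => simp [Reg.vec]
      | y k => simp [Reg.vec]
      | al k => simp [Reg.vec]
      | re c =>
        simp only [Reg.vec]
        by_cases hc : cm h = c
        · subst hc; simp
        · simp [Pi.single_eq_of_ne hc]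
      | im c =>
        simp only [Reg.vec]
        by_cases hc : cm h = c
        · subst hc; simp
        · simp [Pi.single_eq_of_ne hc]
    have h5 : 0 ≤ X₁ ^ 2 := by positivity
    nlinarith

/-! ### directions of a gap -/

theorem Drt6_still {w : Cc R m} {i : Fin 6} (h : le3 R m (kp i) w = 0) : Drt6 R m q i w = 0 := by
  unfold Drt6
  rw [Drt_apply, h]
  simp

theorem Dpos_still {j : L} {k : Fin 3} (h : R.pl j = Sum.inl k) {w : Cc R m} (hX : mX m h w = 0)
    (hY : mY m h w = 0) : Dpos m q j w = 0 := by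
  rw [Dpos_neck m h, smul_apply, Dz_apply, hX, hY]
  simp

theorem Tq_still {j : L} {w : Cc R m} (h1 : Dpos m q j w = 0) {i : Fin 6}
    (h2 : le3 R m (kp i) w = 0) : Tq m S q j i w = 0 := by
  have e : Tq m S q j i w = Dxq m S q j w - Drt6 R m q i w := rfl
  have h3 : Dxq m S q j w = 0 := by
    unfold Dxq
    split_ifs
    · have : ((-((R.pos (ppt R m q) j) ^ 2)⁻¹) • Dpos m q j) w =
        -((R.pos (ppt R m q) j) ^ 2)⁻¹ * Dpos m q j w := rfl
      rw [this, h1, mul_zero]
    · exact h1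
  rw [e, h3, Drt6_still h2, sub_zero]

theorem mem_neck_iff (l : Fin 3) (g : Σ k, Fin (R.n k + 1)) :
    g ∈ (wreg R.n m).neck l ↔ g.1 = l := (wreg R.n m).mem_neck

theorem le3_u (l : Fin 3) (f : (wreg R.n m).Fr) : le3 R m l ((wreg R.n m).vec (.u f)) = 0 := by
  have e1 : (wreg R.n m).last ((wreg R.n m).nk f.1) ∈ (wreg R.n m).neck l ↔ f.1.1 = l :=
    mem_neck_iff l _
  have e2 : f.1 ∈ (wreg R.n m).neck l ↔ f.1.1 = l := mem_neck_iff l _
  unfold le3
  rw [(wreg R.n m).lS_vec_u]
  simp only [e1, e2]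
  split_ifs <;> simp

theorem le3_ph (l : Fin 3) (f : (wreg R.n m).Fr) : le3 R m l ((wreg R.n m).vec (.ph f)) = 0 := by
  have e1 : (wreg R.n m).last ((wreg R.n m).nk f.1) ∈ (wreg R.n m).neck l ↔ f.1.1 = l :=
    mem_neck_iff l _
  have e2 : f.1 ∈ (wreg R.n m).neck l ↔ f.1.1 = l := mem_neck_iff l _
  unfold le3
  rw [(wreg R.n m).lS_vec_ph]
  simp only [e1, e2]
  split_ifs <;> simp

theorem le3_gap (l : Fin 3) (f : (wreg R.n m).Fr) {w : Cc R m}
    (hw : w = (wreg R.n m).vec (.u f) ∨ w = (wreg R.n m).vec (.ph f)) : le3 R m l w = 0 := by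
  rcases hw with rfl | rfl
  · exact le3_u l f
  · exact le3_ph l f

/-- **(B2)** directions of a gap: the mark does not move, or it is deep -/
theorem gap_dir0 (A : H562.Adm R m S N₀ q) (h0 : 0 ≤ N₀) (hS : H732.FarOk R S) (j : L)
    (f : (wreg R.n m).Fr) {w : Cc R m}
    (hw : w = (wreg R.n m).vec (.u f) ∨ w = (wreg R.n m).vec (.ph f)) :
    Dpos m q j w = 0 ∨ (R.pl j = Sum.inl f.1.1 ∧
      ‖xq R m S q j - ctr f.1.1‖ ≤ 1 / 16 * Real.exp (-q.1 f)) := by
  have hle : ∀ l, le3 R m l w = 0 := fun l => le3_gap l f hw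
  cases h : R.pl j with
  | inr s =>
    left
    rw [Dpos_cm h]
    rcases hw with rfl | rfl <;> simp [Reg.vec]
  | inl k =>
    by_cases hk : f.1.1 = k
    · subst hk
      -- the sets before and after the mark
      by_cases hr : f.1 ∈ wreg.bef R.n f.1.1 (rkF R h) ↔
          (wreg R.n m).last ((wreg R.n m).nk f.1) ∈ wreg.bef R.n f.1.1 (rkF R h)
      · left
        have h1 := (wreg R.n m).lS_vec_rigid (C := R.Cm) _ f hr
        have hX : mX m h w = 0 := by
          rcases hw with rfl | rfl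
          · exact h1.1
          · exact h1.2
        have hY : mY m h w = 0 := by
          have h2 := mX_add_mY m h w
          rw [hX, hle, zero_add] at h2
          exact h2
        exact Dpos_still h hX hY
      · right
        refine ⟨rfl, ?_⟩
        have Am := adm_of A h0
        have hu := A.1.2 f
        have hug : ∀ g, 0 ≤ (wreg R.n m).ug q g := (wreg R.n m).ug_nonneg A.1 Am.ul
        have hf : (wreg R.n m).ug q f.1 = q.1 f := (wreg R.n m).ug_free q f
        have hl : (wreg R.n m).ug q ((wreg R.n m).last ((wreg R.n m).nk f.1)) =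
            (wreg R.n m).ul q ((wreg R.n m).nk f.1) := (wreg R.n m).ug_last q _
        have key : ∀ (U : Finset (Σ k, Fin (R.n k + 1))), (f.1 ∈ U ∨
            (wreg R.n m).last ((wreg R.n m).nk f.1) ∈ U) →
            ‖exp ((wreg R.n m).lS (C := R.Cm) U q)‖ ≤ Real.exp (-q.1 f) := by
          intro U hU
          rw [Complex.norm_exp, (wreg R.n m).lS_re, Real.exp_le_exp, neg_le_neg_iff]
          rcases hU with hU | hU
          · rw [← hf]
            exact Finset.single_le_sum (f := fun g => (wreg R.n m).ug q g) (fun g _ => hug g) hU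
          · refine hu.trans ?_
            rw [← hl]
            exact Finset.single_le_sum (f := fun g => (wreg R.n m).ug q g) (fun g _ => hug g) hU
        have hmem : ∀ g : Σ k, Fin (R.n k + 1), g.1 = f.1.1 →
            g ∉ wreg.bef R.n f.1.1 (rkF R h) → g ∈ wreg.aft R.n f.1.1 (rkF R h) := by
          intro g hg hb
          rw [← wreg.sdiff_bef m, Finset.mem_sdiff]
          exact ⟨(mem_neck_iff _ g).2 hg, hb⟩
        have hX : ‖exp (mX m h q)‖ ≤ Real.exp (-q.1 f) := by
          refine key _ ?_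
          by_contra hc
          push Not at hc
          exact hr ⟨fun h1 => absurd h1 hc.1, fun h1 => absurd h1 hc.2⟩
        have hY : ‖exp (mY m h q)‖ ≤ Real.exp (-q.1 f) := by
          refine key _ ?_
          by_cases hb : f.1 ∈ wreg.bef R.n f.1.1 (rkF R h)
          · right
            refine hmem _ rfl fun h1 => hr ⟨fun _ => h1, fun _ => hb⟩
          · left
            exact hmem _ rfl hb
        rw [xq_near m (S_neck hS h), pos_ppt_neck m h]
        have e : ctr f.1.1 + 1 / 16 * zz (mX m h) (mY m h) q - ctr f.1.1 =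
            1 / 16 * zz (mX m h) (mY m h) q := by ring
        rw [e, norm_mul]
        unfold zz
        have h3 := norm_add_le (exp (mX m h q)) (exp (mY m h q))
        have h4 : ‖(1 / 16 : ℂ)‖ = 1 / 16 := by norm_num
        have h5 : ‖(2 : ℂ)‖ = 2 := by simp
        rw [h4, norm_div, h5]
        linarith
    · left
      have hd : ∀ U ⊆ (wreg R.n m).neck k, (wreg R.n m).lS (C := R.Cm) U w = 0 := by
        intro U hU
        have h1 : f.1 ∉ U := fun h1 => hk ((mem_neck_iff k _).1 (hU h1))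
        have h2 : (wreg R.n m).last ((wreg R.n m).nk f.1) ∉ U := fun h2 =>
          hk ((mem_neck_iff k ((wreg R.n m).last ((wreg R.n m).nk f.1))).1 (hU h2))
        rcases hw with rfl | rfl
        · rw [(wreg R.n m).lS_vec_u, if_neg h1, if_neg h2, sub_zero]
        · rw [(wreg R.n m).lS_vec_ph, if_neg h1, if_neg h2, sub_zero, zero_mul]
      exact Dpos_still h (hd _ (wreg.bef_subset m k _)) (hd _ (wreg.aft_subset m k _))

theorem gap_dir (A : H562.Adm R m S N₀ q) (h0 : 0 ≤ N₀) (hS : H732.FarOk R S) (j : L)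
    (f : (wreg R.n m).Fr) {w : Cc R m}
    (hw : w = (wreg R.n m).vec (.u f) ∨ w = (wreg R.n m).vec (.ph f)) :
    (∀ i, Tq m S q j i w = 0) ∨ (R.pl j = Sum.inl f.1.1 ∧
      ‖xq R m S q j - ctr f.1.1‖ ≤ 1 / 16 * Real.exp (-q.1 f)) :=
  (gap_dir0 A h0 hS j f hw).imp (fun h1 _ => Tq_still h1 (le3_gap _ f hw)) id

/-! ### the base angles -/

/-- the size of a mark -/
def szm (m : ∀ k, Fin (R.n k + 1)) (q : Cc R m) (j : L) : ℝ :=
  match h : R.pl j with
  | Sum.inl _ => sz (mX m h) (mY m h) q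
  | Sum.inr _ => 1

theorem szm_neck {j : L} {k : Fin 3} (h : R.pl j = Sum.inl k) :
    szm m q j = sz (mX m h) (mY m h) q := by
  unfold szm
  split
  · rename_i k' h'
    have : k' = k := by rw [h] at h'; exact (Sum.inl.inj h').symm
    subst this
    rfl
  · rename_i s h'
    rw [h] at h'
    cases h'

theorem szm_core {j : L} {s : Bool} (h : R.pl j = Sum.inr s) : szm m q j = 1 := by
  unfold szm
  split
  · rename_i k' h'
    rw [h] at h'
    cases h'
  · rfl

theorem szm_pos (j : L) : 0 < szm m q j := by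
  cases h : R.pl j with
  | inl k => rw [szm_neck h]; exact sz_pos _ _ _
  | inr s => rw [szm_core h]; exact one_pos

/-- the last gap is at least `y / 15` -/
theorem ul_ge15 (A : H562.Adm R m S N₀ q) (h0 : 0 ≤ N₀) (l : Fin 3) :
    q.2.2.1 l / 15 ≤ (wreg R.n m).ul q l := by
  have Am := adm_of A h0
  have h2 := Am.ul l
  have hle : ∀ g : Σ k, Fin (R.n k + 1), g ∈ (wreg R.n m).neck l →
      (wreg R.n m).ug q g ≤ (wreg R.n m).ul q l := by
    intro g hg
    have hg' : g.1 = l := (mem_neck_iff l g).1 hg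
    by_cases h : g ≠ (wreg R.n m).last ((wreg R.n m).nk g)
    · have h3 := A.1.2 ⟨g, h⟩
      have h4 : (wreg R.n m).ug q g = q.1 ⟨g, h⟩ := (wreg R.n m).ug_free q ⟨g, h⟩
      rw [h4]
      subst hg'
      exact h3
    · push Not at h
      have h4 : (wreg R.n m).ug q ((wreg R.n m).last ((wreg R.n m).nk g)) =
          (wreg R.n m).ul q ((wreg R.n m).nk g) := (wreg R.n m).ug_last q _
      subst hg'
      rw [h]
      exact h4.le
  have h1 : q.2.2.1 l = ∑ g ∈ (wreg R.n m).neck l, (wreg R.n m).ug q g := by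
    rw [← (wreg R.n m).sum_ug q l]
    unfold Reg.neck
    rw [Finset.sum_filter]
  have h3 : ∑ g ∈ (wreg R.n m).neck l, (wreg R.n m).ug q g ≤
      ∑ _g ∈ (wreg R.n m).neck l, (wreg R.n m).ul q l := Finset.sum_le_sum hle
  rw [Finset.sum_const, nsmul_eq_mul] at h3
  have h4 : ((wreg R.n m).neck l).card ≤ 15 := by
    have h5 : ((wreg R.n m).neck l) ⊆ (Finset.univ : Finset (Fin (R.n l + 1))).map
        ⟨fun j => (⟨l, j⟩ : Σ k, Fin (R.n k + 1)), fun a b h => by simpa using h⟩ := by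
      intro g hg
      have hg' : g.1 = l := (mem_neck_iff l g).1 hg
      obtain ⟨k, j⟩ := g
      have hk : k = l := hg'
      subst hk
      exact Finset.mem_map.2 ⟨j, Finset.mem_univ _, rfl⟩
    refine (Finset.card_le_card h5).trans ?_
    rw [Finset.card_map, Finset.card_univ, Fintype.card_fin]
    have h6 : R.n l ≤ (Finset.univ : Finset L).card := Finset.card_le_card (Finset.filter_subset _ _)
    have h7 : (Finset.univ : Finset L).card = 14 := by simp
    omega
  have h5 : (((wreg R.n m).neck l).card : ℝ) ≤ 15 := by exact_mod_cast h4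
  have h6 : (((wreg R.n m).neck l).card : ℝ) * (wreg R.n m).ul q l ≤
      15 * (wreg R.n m).ul q l := mul_le_mul_of_nonneg_right h5 h2
  linarith

theorem le3_al (l l' : Fin 3) : le3 R m l' ((wreg R.n m).vec (.al l)) =
    (if l = l' then 1 else 0) * Complex.I := by
  unfold le3
  rw [(wreg R.n m).lS_vec_al]
  have e1 : (wreg R.n m).last l ∈ (wreg R.n m).neck l' ↔ l = l' := mem_neck_iff l' _
  simp only [e1]

/-- all derivatives in the direction of a base angle -/
theorem norm_Tq_al (A : H562.Adm R m S N₀ q) (h0 : 0 ≤ N₀) (hS : H732.FarOk R S) (j : L) (i : Fin 6)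
    (l : Fin 3) : ‖Tq m S q j i ((wreg R.n m).vec (.al l))‖ ≤ 2 * Real.exp (-(q.2.2.1 l / 15)) := by
  have Am := adm_of A h0
  have hy := Am.y_nonneg l
  have hroot : ‖hd (1 / 16) (le3 R m) (kp i) q‖ * ‖le3 R m (kp i) ((wreg R.n m).vec (.al l))‖ ≤
      Real.exp (-(q.2.2.1 l / 15)) := by
    rw [le3_al]
    by_cases hl : l = kp i
    · rw [if_pos hl, one_mul, Complex.norm_I, mul_one, norm_hd_eq, ← hl]
      have h1 : Real.exp (-(q.2.2.1 l) / 2) ≤ Real.exp (-(q.2.2.1 l / 15)) := by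
        rw [Real.exp_le_exp]; linarith
      have := Real.exp_pos (-(q.2.2.1 l) / 2)
      linarith
    · rw [if_neg hl, zero_mul, norm_zero, mul_zero]
      exact (Real.exp_pos _).le
  cases h : R.pl j with
  | inr s =>
    have e : Tq m S q j i ((wreg R.n m).vec (.al l)) =
        -Drt (1 / 16) (le3 R m) kp sg6 q i ((wreg R.n m).vec (.al l)) := by
      have e1 : Tq m S q j i ((wreg R.n m).vec (.al l)) =
        Dxq m S q j ((wreg R.n m).vec (.al l)) -
          Drt (1 / 16) (le3 R m) kp sg6 q i ((wreg R.n m).vec (.al l)) := rfl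
      have e2 : Dpos m q j ((wreg R.n m).vec (.al l)) = 0 := by
        rw [Dpos_cm h]; simp [Reg.vec]
      have e3 : Dxq m S q j ((wreg R.n m).vec (.al l)) = 0 := by
        unfold Dxq
        split_ifs
        · have : ((-((R.pos (ppt R m q) j) ^ 2)⁻¹) • Dpos m q j) ((wreg R.n m).vec (.al l)) =
            -((R.pos (ppt R m q) j) ^ 2)⁻¹ * Dpos m q j ((wreg R.n m).vec (.al l)) := rfl
          rw [this, e2, mul_zero]
        · exact e2
      rw [e1, e3, zero_sub]
    have h3 := norm_Drt_le (1 / 16) (le3 R m) kp sg6_sq q i ((wreg R.n m).vec (.al l))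
    rw [e, norm_neg]
    have := Real.exp_pos (-(q.2.2.1 l / 15))
    linarith
  | inl k =>
    have hul := ul_ge15 A h0 l
    have hug : ∀ g, 0 ≤ (wreg R.n m).ug q g := (wreg R.n m).ug_nonneg A.1 Am.ul
    have key : ∀ (U : Finset (Σ k, Fin (R.n k + 1))),
        ‖exp ((wreg R.n m).lS (C := R.Cm) U q)‖ *
          ‖(wreg R.n m).lS (C := R.Cm) U ((wreg R.n m).vec (.al l))‖ ≤
          Real.exp (-(q.2.2.1 l / 15)) := by
      intro U
      rw [(wreg R.n m).lS_vec_al]
      by_cases hU : (wreg R.n m).last l ∈ U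
      · rw [if_pos hU, one_mul, Complex.norm_I, mul_one, Complex.norm_exp, (wreg R.n m).lS_re,
          Real.exp_le_exp, neg_le_neg_iff]
        refine hul.trans ?_
        have h1 : (wreg R.n m).ug q ((wreg R.n m).last l) = (wreg R.n m).ul q l :=
          (wreg R.n m).ug_last q _
        rw [← h1]
        exact Finset.single_le_sum (f := fun g => (wreg R.n m).ug q g) (fun g _ => hug g) hU
      · rw [if_neg hU, zero_mul, norm_zero, mul_zero]
        exact (Real.exp_pos _).le
    rw [Tq_neck hS h]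
    have h1 := norm_Dz_le (mX m h) (mY m h) q ((wreg R.n m).vec (.al l))
    have h2 := norm_Drt_le (1 / 16) (le3 R m) kp sg6_sq q i ((wreg R.n m).vec (.al l))
    have h3 : ‖Tn (1 / 16) (le3 R m) kp sg6 (mX m h) (mY m h) q i ((wreg R.n m).vec (.al l))‖ ≤
        ‖(1 / 16 : ℂ)‖ * ‖Dz (mX m h) (mY m h) q ((wreg R.n m).vec (.al l))‖ +
          ‖Drt (1 / 16) (le3 R m) kp sg6 q i ((wreg R.n m).vec (.al l))‖ := by
      simp only [Tn, sub_apply, smul_apply, smul_eq_mul]
      refine (norm_sub_le _ _).trans ?_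
      rw [norm_mul]
    have h4 : ‖(1 / 16 : ℂ)‖ = 1 / 16 := by norm_num
    rw [h4] at h3
    have kX : ‖exp (mX m h q)‖ * ‖mX m h ((wreg R.n m).vec (.al l))‖ ≤ _ :=
      key (wreg.bef R.n k (rkF R h))
    have kY : ‖exp (mY m h q)‖ * ‖mY m h ((wreg R.n m).vec (.al l))‖ ≤ _ :=
      key (wreg.aft R.n k (rkF R h))
    have := Real.exp_pos (-(q.2.2.1 l / 15))
    linarith

/-- a bound of all derivatives -/
theorem near_bdm (A : H562.Adm R m S N₀ q) (h6 : 6 ≤ N₀) (hS : H732.FarOk R S) {j : L}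
    (ho : Off8 m S q j) (h0 : S j = true → R.pos (ppt R m q) j ≠ 0) {w : Cc R m} {M : ℝ}
    (hM : ∀ i, ‖Tq m S q j i w‖ ≤ M) (hM0 : 0 ≤ M) :
    Near (tq m S q j) (fun i => Tq m S q j i w) 0 (1024 * M / szm m q j) := by
  cases h : R.pl j with
  | inl k =>
    have N := neckPt_off8 A (by linarith) hS h ho
    have h1 := N.near_bd le_rfl (w := w) (M := M) (fun i => by rw [← Tq_neck hS h]; exact hM i) hM0
    refine near_neck hS h (h1.mono (le_of_eq ?_))
    rw [szm_neck h]
    have h4 : ‖(1 / 16 : ℂ)‖ = 1 / 16 := by norm_num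
    rw [h4]
    have := sz_pos (mX m h) (mY m h) q
    field_simp
    ring
  | inr s =>
    rw [szm_core h]
    refine (near_far (δ := 1 / 128) (by norm_num) (core_lower A h6 h h0) hM).mono ?_
    norm_num
    linarith

/-- **(B3)** the base angles -/
theorem near_al (A : H562.Adm R m S N₀ q) (h6 : 6 ≤ N₀) (hS : H732.FarOk R S) {j : L}
    (ho : Off8 m S q j) (h0 : S j = true → R.pos (ppt R m q) j ≠ 0) (l : Fin 3) :
    Near (tq m S q j) (fun i => Tq m S q j i ((wreg R.n m).vec (.al l))) 0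
      (2048 * Real.exp (-(q.2.2.1 l / 15)) / szm m q j) := by
  refine (near_bdm A h6 hS ho h0 (norm_Tq_al A (by linarith) hS j · l)
    (by have := Real.exp_pos (-(q.2.2.1 l / 15)); linarith)).mono (le_of_eq ?_)
  ring

/-! ### close marks -/

/-- the marks are close relative to the distance of the first one to the roots -/
def Cl (m : ∀ k, Fin (R.n k + 1)) (S : L → Bool) (q : Cc R m) (j j' : L) : Prop :=
  ∀ i, ‖xq R m S q j - xq R m S q j'‖ ≤ 1 / 2 * ‖tq m S q j i‖

theorem Cl.le {j j' : L} (h : Cl m S q j j') (i : Fin 6) :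
    ‖tq m S q j' i‖ ≤ 3 / 2 * ‖tq m S q j i‖ := by
  have e : tq m S q j' i = tq m S q j i - (xq R m S q j - xq R m S q j') := by unfold tq; ring
  rw [e]
  have h1 := h i
  have h2 := norm_sub_le (tq m S q j i) (xq R m S q j - xq R m S q j')
  linarith

theorem Cl.ge {j j' : L} (h : Cl m S q j j') (i : Fin 6) :
    ‖tq m S q j i‖ ≤ 2 * ‖tq m S q j' i‖ := by
  have e : tq m S q j i = tq m S q j' i + (xq R m S q j - xq R m S q j') := by unfold tq; ring
  have h1 := h i
  have h2 := norm_add_le (tq m S q j' i) (xq R m S q j - xq R m S q j')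
  rw [← e] at h2
  linarith

/-- the size of a mark is the sum of the distances to the roots of its neck -/
theorem sum_tq (A : H562.Adm R m S N₀ q) (h0 : 0 ≤ N₀) (hS : H732.FarOk R S) {j : L} {k : Fin 3}
    (h : R.pl j = Sum.inl k) (ho : Off8 m S q j) {i i' : Fin 6} (hi : kp i = k) (hi' : kp i' = k)
    (hs : sg6 i' = -sg6 i) : ‖tq m S q j i‖ + ‖tq m S q j i'‖ = 1 / 16 * szm m q j := by
  have N := neckPt_off8 A h0 hS h ho
  have h1 := N.sum_eq hi hi' hs
  rw [← tq_neck hS h, ← tq_neck hS h] at h1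
  rw [h1, szm_neck h]
  norm_num

/-- **(B6)** close marks of one neck have comparable sizes -/
theorem szm_le (A : H562.Adm R m S N₀ q) (h0 : 0 ≤ N₀) (hS : H732.FarOk R S) {j j' : L} {k : Fin 3}
    (h : R.pl j = Sum.inl k) (h' : R.pl j' = Sum.inl k) (ho : Off8 m S q j) (ho' : Off8 m S q j')
    (hc : Cl m S q j j') : szm m q j' ≤ 3 / 2 * szm m q j ∧ szm m q j ≤ 2 * szm m q j' := by
  obtain ⟨i, i', hi, hi', hs, -⟩ := exists_pair k
  have e1 := sum_tq A h0 hS h ho hi hi' hs
  have e2 := sum_tq A h0 hS h' ho' hi hi' hs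
  have h1 := hc.le i
  have h2 := hc.le i'
  have h3 := hc.ge i
  have h4 := hc.ge i'
  constructor <;> linarith

/-- a neck mark close to a mark which is not in this neck has size at least `1/12` -/
theorem szm_ge (A : H562.Adm R m S N₀ q) (h6 : 6 ≤ N₀) (hS : H732.FarOk R S) {j j' : L} {k : Fin 3}
    (h : R.pl j = Sum.inl k) (h' : R.pl j' ≠ Sum.inl k) (ho : Off8 m S q j)
    (h0' : S j' = true → R.pos (ppt R m q) j' ≠ 0) (hc : Cl m S q j j' ∨ Cl m S q j' j) :
    1 / 12 ≤ szm m q j := by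
  obtain ⟨i, i', hi, hi', hs, -⟩ := exists_pair k
  have e1 := sum_tq A (by linarith) hS h ho hi hi' hs
  have key : ∀ i, kp i = k → 1 / 128 ≤ ‖tq m S q j' i‖ := by
    intro i hi
    cases hp : R.pl j' with
    | inr s => exact core_lower A h6 hp h0' i
    | inl k' =>
      have hk : kp i ≠ k' := by
        rw [hi]; intro h1; exact h' (by rw [hp, h1])
      have h1 := far_le (adm_of A (by linarith)) hp hk
      rw [tq_neck hS hp]
      refine le_trans (by norm_num) h1
  have h1 := key i hi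
  have h2 := key i' hi'
  rcases hc with hc | hc
  · have h3 := hc.le i
    have h4 := hc.le i'
    linarith
  · have h3 := hc.ge i
    have h4 := hc.ge i'
    linarith

/-! ### the Euler vectors -/

/-- depth of a mark of the neck `l`, seen from the nearer core -/
def sv (m : ∀ k, Fin (R.n k + 1)) (q : Cc R m) (j : L) (l : Fin 3) : ℝ :=
  match h : R.pl j with
  | Sum.inl k => if k = l then
      min (wreg.dep m q k (rkF R h)) (q.2.2.1 k - wreg.dep m q k (rkF R h)) else 0
  | Sum.inr _ => 0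

theorem sv_neck {j : L} {k : Fin 3} (h : R.pl j = Sum.inl k) : sv m q j k =
    min (wreg.dep m q k (rkF R h)) (q.2.2.1 k - wreg.dep m q k (rkF R h)) := by
  unfold sv
  split
  · rename_i k' h'
    have : k' = k := by rw [h] at h'; exact (Sum.inl.inj h').symm
    subst this
    rw [if_pos rfl]
  · rename_i s h'
    rw [h] at h'
    cases h'

theorem sv_other {j : L} {l : Fin 3} (h : R.pl j ≠ Sum.inl l) : sv m q j l = 0 := by
  unfold sv
  split
  · rename_i k' h'
    rw [if_neg]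
    intro h1
    exact h (by rw [h', h1])
  · rfl

theorem sum_bef (q : Cc R m) (k : Fin 3) (i : Fin (R.n k)) :
    ∑ g ∈ wreg.bef R.n k i, (wreg R.n m).ug q g = wreg.dep m q k i := by
  have h1 := (wreg R.n m).lS_re (C := R.Cm) (wreg.bef R.n k i) q
  have h2 := wreg.LX_eq m q k i
  unfold wreg.LX at h2
  rw [h2] at h1
  simp at h1
  exact h1.symm

theorem mX_eul {j : L} {k : Fin 3} (h : R.pl j = Sum.inl k) (hy : q.2.2.1 k ≠ 0) :
    mX m h ((wreg R.n m).eul q k) = -((wreg.dep m q k (rkF R h) / q.2.2.1 k : ℝ) : ℂ) := by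
  unfold mX wreg.LX
  rw [(wreg R.n m).lS_eul (wreg.bef_subset m k _) q hy, sum_bef]

theorem le3_eul (l l' : Fin 3) (hy : q.2.2.1 l ≠ 0) :
    le3 R m l' ((wreg R.n m).eul q l) = if l' = l then -1 else 0 := by
  unfold le3
  by_cases h : l' = l
  · subst h
    rw [if_pos rfl, (wreg R.n m).lS_eul subset_rfl q hy]
    have h1 : ∑ g ∈ (wreg R.n m).neck l', (wreg R.n m).ug q g = q.2.2.1 l' := by
      rw [← (wreg R.n m).sum_ug q l']
      unfold Reg.neck
      rw [Finset.sum_filter]
    rw [h1, div_self hy]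
    simp
  · rw [if_neg h, (wreg R.n m).lS_eul_of_disjoint _ q hy]
    rw [Finset.disjoint_left]
    intro g hg hg'
    exact h (((wreg R.n m).mem_neck.1 hg).symm.trans ((wreg R.n m).mem_neck.1 hg'))

theorem mY_eul {j : L} {k : Fin 3} (h : R.pl j = Sum.inl k) (hy : q.2.2.1 k ≠ 0) :
    mY m h ((wreg R.n m).eul q k) =
      -(((q.2.2.1 k - wreg.dep m q k (rkF R h)) / q.2.2.1 k : ℝ) : ℂ) := by
  have h1 := mX_add_mY m h ((wreg R.n m).eul q k)
  rw [mX_eul h hy, le3_eul k k hy, if_pos rfl] at h1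
  have h2 : (q.2.2.1 k - wreg.dep m q k (rkF R h)) / q.2.2.1 k =
      1 - wreg.dep m q k (rkF R h) / q.2.2.1 k := by field_simp
  rw [h2, Complex.ofReal_sub, Complex.ofReal_one]
  linear_combination h1

theorem norm_real_neg (x : ℝ) : ‖-(x : ℂ)‖ = |x| := by
  rw [norm_neg, Complex.norm_real, Real.norm_eq_abs]

/-- the Euler vector moves the roots little -/
theorem hd_eul {l : Fin 3} (hy : 0 < q.2.2.1 l) (l' : Fin 3) :
    ‖hd (1 / 16) (le3 R m) l' q‖ * ‖le3 R m l' ((wreg R.n m).eul q l)‖ ≤ 1 / q.2.2.1 l := by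
  rw [le3_eul l l' hy.ne']
  by_cases h : l' = l
  · subst h
    rw [if_pos rfl, norm_neg, norm_one, mul_one, norm_hd_eq, le_div_iff₀ hy]
    have h1 := mul_exp_le (t := q.2.2.1 l' / 2)
    have e : -(q.2.2.1 l') / 2 = -(q.2.2.1 l' / 2) := by ring
    rw [e]
    linarith
  · rw [if_neg h, norm_zero, mul_zero]
    positivity

omit R m S N₀ q in
theorem eul_num {a y : ℝ} (hy : 0 < y) (ha : 0 ≤ a) (h : a ≤ y - a) :
    4 * Real.exp (a - y / 2) * ((y - 2 * a) / y) +
      (Real.exp (-a) * (a / y) + Real.exp (-(y - a)) * ((y - a) / y) + 1 / y) / (2 * 1) +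
      a / y / 1 ^ 2 * (Real.exp (-a) + Real.exp (-(y - a))) ^ 2 ≤ 128 / y := by
  have e0 := Real.exp_pos (-a)
  have e1 := Real.exp_pos (-(y - a))
  have t1 : Real.exp (-a) * (a / y) ≤ 1 / y := by
    rw [← mul_div_assoc]
    have := mul_exp_le (t := a)
    gcongr
    linarith
  have t2 : Real.exp (-(y - a)) * ((y - a) / y) ≤ 1 / y := by
    rw [← mul_div_assoc]
    have := mul_exp_le (t := y - a)
    gcongr
    linarith
  have a1 : 4 * Real.exp (a - y / 2) * ((y - 2 * a) / y) ≤ 8 / y := by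
    have := mul_exp_le (t := y / 2 - a)
    rw [neg_sub] at this
    rw [← mul_div_assoc]
    refine div_le_div_of_nonneg_right ?_ hy.le
    linarith
  have a2 : Real.exp (-(y - a)) ≤ Real.exp (-a) := by
    rw [Real.exp_le_exp]; linarith
  have a3 : a / y / 1 ^ 2 * (Real.exp (-a) + Real.exp (-(y - a))) ^ 2 ≤ 4 / y := by
    have b1 : Real.exp (-a) ≤ 1 := by rw [Real.exp_le_one_iff]; linarith
    have b2 := mul_exp_le (t := a)
    have b3 : (Real.exp (-a) + Real.exp (-(y - a))) ^ 2 ≤ 4 * Real.exp (-a) := by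
      nlinarith
    have b4 : a * (Real.exp (-a) + Real.exp (-(y - a))) ^ 2 ≤ a * (4 * Real.exp (-a)) :=
      mul_le_mul_of_nonneg_left b3 ha
    rw [one_pow, div_one, div_mul_eq_mul_div]
    refine div_le_div_of_nonneg_right ?_ hy.le
    linarith
  have e5 : 128 / y = 8 / y + 2 * (1 / y) + 4 / y + 114 / y := by ring
  have e6 : (0 : ℝ) < 114 / y := by positivity
  have e7 : (0 : ℝ) < 1 / y := by positivity
  rw [e5]
  linarith

/-- **(B4)** the Euler vectors -/
theorem near_eul (A : H562.Adm R m S N₀ q) (h6 : 6 ≤ N₀) (hS : H732.FarOk R S) {j : L}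
    (ho : Off8 m S q j) (h0 : S j = true → R.pos (ppt R m q) j ≠ 0) {X₁ : ℝ} (hX1 : 1 ≤ X₁)
    (hX : ‖xq R m S q j‖ ≤ X₁) (l : Fin 3) :
    Near (tq m S q j) (fun i => Tq m S q j i ((wreg R.n m).eul q l))
      (-((sv m q j l / q.2.2.1 l : ℝ) : ℂ)) (128 / q.2.2.1 l) := by
  have hy : 0 < q.2.2.1 l := by have := A.2.1 l; linarith
  have Am := adm_of A (by linarith : (0 : ℝ) ≤ N₀)
  cases h : R.pl j with
  | inr s =>
    rw [sv_other (by rw [h]; simp)]
    have h1 := core_any A h6 h h0 hX1 hX (w := (wreg R.n m).eul q l) (hd_eul hy)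
    have e : ((wreg R.n m).eul q l).2.2.2.2 (cm h) = 0 := rfl
    rw [e, norm_zero, mul_zero, zero_add] at h1
    simpa [div_eq_mul_inv] using h1
  | inl k =>
    have N := neckPt_off8 A (by linarith) hS h ho
    obtain ⟨i₀, -, hi₀, -⟩ := exists_pair k
    by_cases hk : k = l
    · subst hk
      have hd0 := wreg.dep_nonneg m A.1 Am.ul k (rkF R h)
      have hd1 := wreg.dep_le m A.1 Am.ul k (rkF R h)
      set dp := wreg.dep m q k (rkF R h) with hdp
      set y := q.2.2.1 k with hydef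
      have eX := mX_eul (m := m) h hy.ne'
      have eY := mY_eul (m := m) h hy.ne'
      rw [← hdp, ← hydef] at eX eY
      have nX : ‖mX m h ((wreg R.n m).eul q k)‖ = dp / y := by
        rw [eX, norm_real_neg, abs_of_nonneg (by positivity)]
      have nY : ‖mY m h ((wreg R.n m).eul q k)‖ = (y - dp) / y := by
        rw [eY, norm_real_neg, abs_of_nonneg (div_nonneg (by linarith) hy.le)]
      have nXY : ‖mX m h ((wreg R.n m).eul q k) - mY m h ((wreg R.n m).eul q k)‖ =
          |y - 2 * dp| / y := by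
        rw [eX, eY]
        have e1 : -((dp / y : ℝ) : ℂ) - -(((y - dp) / y : ℝ) : ℂ) = ((y - 2 * dp) / y : ℝ) := by
          push_cast; ring
        rw [e1, Complex.norm_real, Real.norm_eq_abs, abs_div, abs_of_pos hy]
      have mX1 : ‖exp (mX m h q)‖ = Real.exp (-dp) := norm_X_mark h q
      have mY1 : ‖exp (mY m h q)‖ = Real.exp (-(y - dp)) := norm_Y_mark h q
      have mQ : ‖qq (mX m h) (mY m h) q‖ = Real.exp (dp - y / 2) := norm_qq_mark h q
      rw [sv_neck h, ← hdp, ← hydef]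
      rcases le_total dp (y - dp) with hs | hs
      · rw [min_eq_left hs]
        have k1 := N.rig_X (w := (wreg R.n m).eul q k) hi₀ (hd_eul hy)
        rw [nX, nY, nXY, mX1, mY1, mQ, eX] at k1
        refine near_neck hS h (k1.mono ?_)
        rw [abs_of_nonneg (by linarith)]
        exact eul_num hy hd0 hs
      · rw [min_eq_right hs]
        have k1 := N.rig_Y (w := (wreg R.n m).eul q k) hi₀ (hd_eul hy)
        rw [nX, nY, nXY, mX1, mY1, mQ, eY] at k1
        refine near_neck hS h (k1.mono ?_)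
        rw [abs_of_nonpos (by linarith), ← Real.exp_neg]
        have k2 := eul_num (a := y - dp) hy (by linarith) (by linarith)
        have r1 : y - dp - y / 2 = -(dp - y / 2) := by ring
        have r2 : y - 2 * (y - dp) = -(y - 2 * dp) := by ring
        have r3 : y - (y - dp) = dp := by ring
        rw [r1, r2, r3] at k2
        rw [add_comm (Real.exp (-dp)), add_comm (Real.exp (-dp) * (dp / y))]
        exact k2
    · rw [sv_other (by rw [h]; intro h1; exact hk (Sum.inl.inj h1))]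
      have hd : ∀ U ⊆ (wreg R.n m).neck k,
          (wreg R.n m).lS (C := R.Cm) U ((wreg R.n m).eul q l) = 0 := by
        intro U hU
        refine (wreg R.n m).lS_eul_of_disjoint ?_ q hy.ne'
        rw [Finset.disjoint_left]
        intro g hg hg'
        exact hk (((wreg R.n m).mem_neck.1 (hU hg)).symm.trans ((wreg R.n m).mem_neck.1 hg'))
      have hX0 : mX m h ((wreg R.n m).eul q l) = 0 := hd _ (wreg.bef_subset m k _)
      have hY0 : mY m h ((wreg R.n m).eul q l) = 0 := hd _ (wreg.aft_subset m k _)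
      have k1 := N.rig_X (w := (wreg R.n m).eul q l) hi₀ (hd_eul hy)
      rw [hX0, hY0] at k1
      have e : (-((0 / q.2.2.1 l : ℝ) : ℂ)) = 0 := by simp
      rw [e]
      refine near_neck hS h (k1.mono ?_)
      have : (0 : ℝ) < 1 / q.2.2.1 l := by positivity
      have e2 : 128 / q.2.2.1 l = 128 * (1 / q.2.2.1 l) := by ring
      rw [e2]
      simp only [sub_self, norm_zero, mul_zero, zero_add, zero_div, zero_mul, add_zero]
      linarith

/-! ### pairs of close marks -/

open Classical in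
/-- the size with respect to the neck `l` -/
def szl (m : ∀ k, Fin (R.n k + 1)) (q : Cc R m) (j : L) (l : Fin 3) : ℝ :=
  if R.pl j = Sum.inl l then szm m q j else 1

theorem szl_pos (j : L) (l : Fin 3) : 0 < szl m q j l := by
  unfold szl
  split_ifs
  · exact szm_pos j
  · exact one_pos

theorem szl_le_two (A : H562.Adm R m S N₀ q) (h0 : 0 ≤ N₀) (j : L) (l : Fin 3) :
    szl m q j l ≤ 2 := by
  unfold szl
  split_ifs with h
  · rw [szm_neck h]
    have h1 := (adm_of A h0).norm_X_le h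
    have h2 := (adm_of A h0).norm_Y_le h
    unfold sz
    linarith
  · norm_num

theorem szl_close (A : H562.Adm R m S N₀ q) (h6 : 6 ≤ N₀) (hS : H732.FarOk R S) {j j' : L}
    (ho : Off8 m S q j) (ho' : Off8 m S q j') (h0 : S j = true → R.pos (ppt R m q) j ≠ 0)
    (h0' : S j' = true → R.pos (ppt R m q) j' ≠ 0) (hc : Cl m S q j j') (l : Fin 3) :
    szl m q j l ≤ 24 * szl m q j' l ∧ szl m q j' l ≤ 24 * szl m q j l := by
  have b1 := szl_le_two A (by linarith) j l
  have b2 := szl_le_two A (by linarith) j' l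
  have p1 := szl_pos (m := m) (q := q) j l
  have p2 := szl_pos (m := m) (q := q) j' l
  by_cases h : R.pl j = Sum.inl l
  · by_cases h' : R.pl j' = Sum.inl l
    · have h1 := szm_le A (by linarith) hS h h' ho ho' hc
      unfold szl at b1 b2 p1 p2 ⊢
      rw [if_pos h] at b1 p1 ⊢
      rw [if_pos h'] at b2 p2 ⊢
      constructor <;> linarith [h1.1, h1.2]
    · have h1 := szm_ge A h6 hS h h' ho h0' (Or.inl hc)
      unfold szl at b1 b2 p1 p2 ⊢
      rw [if_pos h] at b1 p1 ⊢
      rw [if_neg h'] at b2 p2 ⊢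
      constructor <;> linarith
  · by_cases h' : R.pl j' = Sum.inl l
    · have h1 := szm_ge A h6 hS h' h ho' h0 (Or.inr hc)
      unfold szl at b1 b2 p1 p2 ⊢
      rw [if_neg h] at b1 p1 ⊢
      rw [if_pos h'] at b2 p2 ⊢
      constructor <;> linarith
    · unfold szl
      rw [if_neg h, if_neg h']
      constructor <;> norm_num

/-- position against size -/
theorem norm_sub_ctr_le (hS : H732.FarOk R S) {j : L}
    {X₁ : ℝ} (hX1 : 1 ≤ X₁) (hX : ‖xq R m S q j‖ ≤ X₁) (l : Fin 3) :
    ‖xq R m S q j - ctr l‖ ≤ (X₁ + 6) * szl m q j l := by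
  unfold szl
  split_ifs with h
  · rw [xq_near m (S_neck hS h), pos_ppt_neck m h, szm_neck h]
    have e : ctr l + 1 / 16 * zz (mX m h) (mY m h) q - ctr l =
        1 / 16 * zz (mX m h) (mY m h) q := by ring
    rw [e, norm_mul]
    unfold zz sz
    have h3 := norm_add_le (exp (mX m h q)) (exp (mY m h q))
    have h4 : ‖(1 / 16 : ℂ)‖ = 1 / 16 := by norm_num
    have h5 : ‖(2 : ℂ)‖ = 2 := by simp
    rw [h4, norm_div, h5]
    have h6 := norm_nonneg (exp (mX m h q))
    have h7 := norm_nonneg (exp (mY m h q))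
    nlinarith
  · have h1 := norm_sub_le (xq R m S q j) (ctr l)
    have h2 := norm_ctr_le l
    linarith

/-- **(B3)** the base angles, sharp at the marks of the other necks -/
theorem near_al' (A : H562.Adm R m S N₀ q) (h6 : 6 ≤ N₀) (hS : H732.FarOk R S) {j : L}
    (ho : Off8 m S q j) (h0 : S j = true → R.pos (ppt R m q) j ≠ 0) (l : Fin 3) :
    Near (tq m S q j) (fun i => Tq m S q j i ((wreg R.n m).vec (.al l))) 0
      (2048 * Real.exp (-(q.2.2.1 l / 15)) / szl m q j l) := by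
  unfold szl
  split_ifs with hl
  · exact near_al A h6 hS ho h0 l
  · have hpos := Real.exp_pos (-(q.2.2.1 l / 15))
    cases h : R.pl j with
    | inr s =>
      have h1 := near_al A h6 hS ho h0 l
      rwa [szm_core h] at h1
    | inl k =>
      have hk : l ≠ k := fun h1 => hl (by rw [h, h1])
      have N := neckPt_off8 A (by linarith) hS h ho
      obtain ⟨i₀, -, hi₀, -⟩ := exists_pair k
      have hz : ∀ U ⊆ (wreg R.n m).neck k,
          (wreg R.n m).lS (C := R.Cm) U ((wreg R.n m).vec (.al l)) = 0 := by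
        intro U hU
        rw [(wreg R.n m).lS_vec_al, if_neg, zero_mul]
        intro h1
        exact hk ((mem_neck_iff k ((wreg R.n m).last l)).1 (hU h1))
      have hX0 : mX m h ((wreg R.n m).vec (.al l)) = 0 := hz _ (wreg.bef_subset m k _)
      have hY0 : mY m h ((wreg R.n m).vec (.al l)) = 0 := hz _ (wreg.aft_subset m k _)
      have hD : ∀ l', ‖hd (1 / 16) (le3 R m) l' q‖ * ‖le3 R m l' ((wreg R.n m).vec (.al l))‖ ≤
          Real.exp (-(q.2.2.1 l / 15)) := by
        intro l'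
        rw [le3_al]
        by_cases hl : l = l'
        · subst hl
          have hy := A.2.1 l
          rw [if_pos rfl, one_mul, Complex.norm_I, mul_one, norm_hd_eq]
          have h1 : Real.exp (-(q.2.2.1 l) / 2) ≤ Real.exp (-(q.2.2.1 l / 15)) := by
            rw [Real.exp_le_exp]; linarith
          have := Real.exp_pos (-(q.2.2.1 l) / 2)
          linarith
        · rw [if_neg hl, zero_mul, norm_zero, mul_zero]
          exact hpos.le
      have k1 := N.rig_X (w := (wreg R.n m).vec (.al l)) hi₀ hD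
      rw [hX0, hY0] at k1
      refine near_neck hS h (k1.mono ?_)
      simp only [sub_self, norm_zero, mul_zero, zero_add, zero_div, zero_mul, add_zero]
      linarith

/-- **(P3)** -/
theorem pair_al (A : H562.Adm R m S N₀ q) (h6 : 6 ≤ N₀) (hS : H732.FarOk R S) {j j' : L}
    (ho : Off8 m S q j) (ho' : Off8 m S q j') (h0 : S j = true → R.pos (ppt R m q) j ≠ 0)
    (h0' : S j' = true → R.pos (ppt R m q) j' ≠ 0) (hc : Cl m S q j j') {X₁ : ℝ} (hX1 : 1 ≤ X₁)
    (hX : ‖xq R m S q j‖ ≤ X₁) (hX' : ‖xq R m S q j'‖ ≤ X₁) (l : Fin 3) :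
    ∃ ρ, 0 ≤ ρ ∧ Near (tq m S q j) (fun i => Tq m S q j i ((wreg R.n m).vec (.al l))) 0 ρ ∧
      Near (tq m S q j') (fun i => Tq m S q j' i ((wreg R.n m).vec (.al l))) 0 ρ ∧
      ρ * ‖xq R m S q j - ctr l‖ ≤ 2 ^ 21 * (X₁ + 6) * Real.exp (-(q.2.2.1 l / 15)) ∧
      ρ * ‖xq R m S q j' - ctr l‖ ≤ 2 ^ 21 * (X₁ + 6) * Real.exp (-(q.2.2.1 l / 15)) := by
  have hpos := Real.exp_pos (-(q.2.2.1 l / 15))
  have p1 := szl_pos (m := m) (q := q) j l
  have p2 := szl_pos (m := m) (q := q) j' l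
  obtain ⟨c1, c2⟩ := szl_close A h6 hS ho ho' h0 h0' hc l
  have d1 := norm_sub_ctr_le hS hX1 hX l
  have d2 := norm_sub_ctr_le hS hX1 hX' l
  refine ⟨24 * 2048 * Real.exp (-(q.2.2.1 l / 15)) / szl m q j l, by positivity,
    (near_al' A h6 hS ho h0 l).mono ?_, (near_al' A h6 hS ho' h0' l).mono ?_, ?_, ?_⟩
  · refine div_le_div_of_nonneg_right ?_ p1.le
    linarith
  · rw [div_le_div_iff₀ p2 p1]
    have : 0 ≤ 2048 * Real.exp (-(q.2.2.1 l / 15)) := by positivity
    nlinarith
  · rw [div_mul_eq_mul_div, div_le_iff₀ p1]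
    have h1 : 24 * 2048 * Real.exp (-(q.2.2.1 l / 15)) * ‖xq R m S q j - ctr l‖ ≤
        24 * 2048 * Real.exp (-(q.2.2.1 l / 15)) * ((X₁ + 6) * szl m q j l) := by gcongr
    have h2 : 0 ≤ Real.exp (-(q.2.2.1 l / 15)) * ((X₁ + 6) * szl m q j l) := by positivity
    nlinarith
  · rw [div_mul_eq_mul_div, div_le_iff₀ p1]
    have h1 : 24 * 2048 * Real.exp (-(q.2.2.1 l / 15)) * ‖xq R m S q j' - ctr l‖ ≤
        24 * 2048 * Real.exp (-(q.2.2.1 l / 15)) * ((X₁ + 6) * (24 * szl m q j l)) := by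
      gcongr
      exact d2.trans (mul_le_mul_of_nonneg_left c2 (by linarith))
    have h2 : 0 ≤ Real.exp (-(q.2.2.1 l / 15)) * ((X₁ + 6) * szl m q j l) := by positivity
    nlinarith

omit R m S N₀ q in
theorem exp_four_ge : (24 : ℝ) ≤ Real.exp 4 := by
  have e : Real.exp 4 = Real.exp 1 ^ 4 := by rw [← Real.exp_nat_mul]; norm_num
  rw [e]
  have h4 : (2.7 : ℝ) ≤ Real.exp 1 := by have := Real.exp_one_gt_d9; linarith
  calc (24 : ℝ) ≤ 2.7 ^ 4 := by norm_num
    _ ≤ _ := by gcongr

/-- the size and the depth -/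
theorem szm_sv {j : L} {k : Fin 3} (h : R.pl j = Sum.inl k) :
    Real.exp (-sv m q j k) ≤ szm m q j ∧ szm m q j ≤ 2 * Real.exp (-sv m q j k) := by
  rw [szm_neck h, sv_neck h]
  unfold sz
  rw [norm_X_mark, norm_Y_mark]
  have e0 := Real.exp_pos (-wreg.dep m q k (rkF R h))
  have e1 := Real.exp_pos (-(q.2.2.1 k - wreg.dep m q k (rkF R h)))
  rcases le_total (wreg.dep m q k (rkF R h)) (q.2.2.1 k - wreg.dep m q k (rkF R h)) with hs | hs
  · rw [min_eq_left hs]
    have : Real.exp (-(q.2.2.1 k - wreg.dep m q k (rkF R h))) ≤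
        Real.exp (-wreg.dep m q k (rkF R h)) := by rw [Real.exp_le_exp]; linarith
    constructor <;> linarith
  · rw [min_eq_right hs]
    have : Real.exp (-wreg.dep m q k (rkF R h)) ≤
        Real.exp (-(q.2.2.1 k - wreg.dep m q k (rkF R h))) := by rw [Real.exp_le_exp]; linarith
    constructor <;> linarith

theorem sv_nonneg (A : H562.Adm R m S N₀ q) (h0 : 0 ≤ N₀) (j : L) (l : Fin 3) :
    0 ≤ sv m q j l := by
  by_cases h : R.pl j = Sum.inl l
  · rw [sv_neck h]
    have Am := adm_of A h0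
    have hd0 := wreg.dep_nonneg m A.1 Am.ul l (rkF R h)
    have hd1 := wreg.dep_le m A.1 Am.ul l (rkF R h)
    exact le_min hd0 (by linarith)
  · rw [sv_other h]

/-- **(B6)** the depths of close marks differ by at most 4 -/
theorem sv_close (A : H562.Adm R m S N₀ q) (h6 : 6 ≤ N₀) (hS : H732.FarOk R S) {j j' : L}
    (ho : Off8 m S q j) (ho' : Off8 m S q j') (h0 : S j = true → R.pos (ppt R m q) j ≠ 0)
    (h0' : S j' = true → R.pos (ppt R m q) j' ≠ 0) (hc : Cl m S q j j') (l : Fin 3) :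
    |sv m q j l - sv m q j' l| ≤ 4 := by
  have s1 := sv_nonneg A (by linarith) j l
  have s2 := sv_nonneg A (by linarith) j' l
  have h4 := exp_four_ge
  have key : ∀ {a b : ℝ}, Real.exp (-a) ≤ 24 * Real.exp (-b) → b - a ≤ 4 := by
    intro a b h
    have h1 : Real.exp (-a) ≤ Real.exp (4 - b) := by
      rw [sub_eq_add_neg, Real.exp_add]
      have := Real.exp_pos (-b)
      nlinarith
    rw [Real.exp_le_exp] at h1
    linarith
  by_cases h : R.pl j = Sum.inl l
  · obtain ⟨a1, a2⟩ := szm_sv (m := m) (q := q) h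
    by_cases h' : R.pl j' = Sum.inl l
    · obtain ⟨b1, b2⟩ := szm_sv (m := m) (q := q) h'
      obtain ⟨c1, c2⟩ := szm_le A (by linarith) hS h h' ho ho' hc
      have := Real.exp_pos (-sv m q j l)
      have := Real.exp_pos (-sv m q j' l)
      rw [abs_le]
      constructor
      · have := key (a := sv m q j l) (b := sv m q j' l) (by linarith)
        linarith
      · exact key (a := sv m q j' l) (b := sv m q j l) (by linarith)
    · have c := szm_ge A h6 hS h h' ho h0' (Or.inl hc)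
      rw [sv_other h', sub_zero, abs_of_nonneg s1]
      have := key (a := 0) (b := sv m q j l) (by rw [neg_zero, Real.exp_zero]; linarith)
      linarith
  · by_cases h' : R.pl j' = Sum.inl l
    · obtain ⟨b1, b2⟩ := szm_sv (m := m) (q := q) h'
      have c := szm_ge A h6 hS h' h ho' h0 (Or.inr hc)
      rw [sv_other h, zero_sub, abs_neg, abs_of_nonneg s2]
      have := key (a := 0) (b := sv m q j' l) (by rw [neg_zero, Real.exp_zero]; linarith)
      linarith
    · rw [sv_other h, sv_other h']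
      norm_num

/-- the marks are nowhere at a root -/
theorem tq_ne {j : L} (ho : Off8 m S q j) (i : Fin 6) : tq m S q j i ≠ 0 := by
  have h1 := ho i
  have h2 : 0 < ‖hd (1 / 16) (le3 R m) (kp i) q‖ :=
    norm_pos_iff.2 (mul_ne_zero (by norm_num) (Complex.exp_ne_zero _))
  exact norm_pos_iff.1 (lt_of_lt_of_le (by positivity) h1)

/-- **(P4)** -/
theorem pair_eul (A : H562.Adm R m S N₀ q) (h6 : 6 ≤ N₀) (hS : H732.FarOk R S) {j j' : L}
    (ho : Off8 m S q j) (ho' : Off8 m S q j') (h0 : S j = true → R.pos (ppt R m q) j ≠ 0)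
    (h0' : S j' = true → R.pos (ppt R m q) j' ≠ 0) (hc : Cl m S q j j') {X₁ : ℝ} (hX1 : 1 ≤ X₁)
    (hX : ‖xq R m S q j‖ ≤ X₁) (hX' : ‖xq R m S q j'‖ ≤ X₁) (l : Fin 3) :
    ∃ ζ, Near (tq m S q j) (fun i => Tq m S q j i ((wreg R.n m).eul q l)) ζ (132 / q.2.2.1 l) ∧
      Near (tq m S q j') (fun i => Tq m S q j' i ((wreg R.n m).eul q l)) ζ (132 / q.2.2.1 l) := by
  have hy : 0 < q.2.2.1 l := by have := A.2.1 l; linarith
  refine ⟨_, (near_eul A h6 hS ho h0 hX1 hX l).mono ?_,
    ((near_eul A h6 hS ho' h0' hX1 hX' l).shift (tq_ne ho') (a := 4 / q.2.2.1 l) ?_).mono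
      ?_⟩
  · gcongr
    norm_num
  · have e : (-((sv m q j' l / q.2.2.1 l : ℝ) : ℂ)) - (-((sv m q j l / q.2.2.1 l : ℝ) : ℂ)) =
        (((sv m q j l - sv m q j' l) / q.2.2.1 l : ℝ) : ℂ) := by push_cast; ring
    rw [e, Complex.norm_real, Real.norm_eq_abs, abs_div, abs_of_pos hy]
    gcongr
    exact sv_close A h6 hS ho ho' h0 h0' hc l
  · rw [← add_div]
    norm_num

end marks

end Vale.Agent.P273.H738
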