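import Vale.Agent.P273.H578.Hsc

/-!
# P273, LIM-G2: the distances to the roots in logarithmic coordinates

A mark in a neck has the coordinates `X = exp (lX p)`, `Y = exp (lY p)`, `lX`, `lY` linear in the
logarithmic coordinates `p`; `x - e = (X + Y) / 2`, the two roots are `e ± d`, `d ^ 2 = X Y`.

* `hasFDerivAt_geo`: the logarithmic derivative of `x - e - σ d` is `LD`;
* `LD_sub_X`, `LD_sub_Y`, `LD_bound`: off the discs round the roots `LD` is bounded and near `lX`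
  for small `Y / X`;
* `pair_eq`, `pair_deriv`: the difference of two marks of a neck;
* `hh_ge`: the discs of the cut-offs;
* `hasFDerivAt_Hs`: the scale; its logarithmic derivative is a weighted average.
-/

open Filter Topology
open Complex (exp)

noncomputable section

namespace Vale.Agent.P273.H738

variable {E : Type*} [NormedAddCommGroup E] [NormedSpace ℝ E]

/-- `x - e` -/
def zz (lX lY : E →L[ℝ] ℂ) (p : E) : ℂ := (exp (lX p) + exp (lY p)) / 2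

/-- half the distance of the two roots -/
def dd (lX lY : E →L[ℝ] ℂ) (p : E) : ℂ := exp ((lX p + lY p) / 2)

/-- the square root of `Y / X` -/
def qq (lX lY : E →L[ℝ] ℂ) (p : E) : ℂ := exp ((lY p - lX p) / 2)

/-- the logarithmic derivative of `x - e - σ d` -/
def LD (lX lY : E →L[ℝ] ℂ) (σ : ℂ) (p : E) : E →L[ℝ] ℂ :=
  (1 - σ * qq lX lY p)⁻¹ • (lX - (σ * qq lX lY p) • lY)

theorem LD_apply (lX lY : E →L[ℝ] ℂ) (σ : ℂ) (p w : E) :
    LD lX lY σ p w = (1 - σ * qq lX lY p)⁻¹ * (lX w - σ * qq lX lY p * lY w) := by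
  simp [LD]

theorem qq_ne (lX lY : E →L[ℝ] ℂ) (p : E) : qq lX lY p ≠ 0 := Complex.exp_ne_zero _

theorem X_mul_qq (lX lY : E →L[ℝ] ℂ) (p : E) : exp (lX p) * qq lX lY p = dd lX lY p := by
  unfold qq dd
  rw [← Complex.exp_add]
  congr 1; ring

theorem dd_mul_qq (lX lY : E →L[ℝ] ℂ) (p : E) : dd lX lY p * qq lX lY p = exp (lY p) := by
  unfold qq dd
  rw [← Complex.exp_add]
  congr 1; ring

theorem dd_sq (lX lY : E →L[ℝ] ℂ) (p : E) : dd lX lY p ^ 2 = exp (lX p) * exp (lY p) := by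
  unfold dd
  rw [← Complex.exp_add, ← Complex.exp_nat_mul]
  congr 1; push_cast; ring

theorem norm_qq (lX lY : E →L[ℝ] ℂ) (p : E) :
    ‖qq lX lY p‖ = Real.exp (((lY p).re - (lX p).re) / 2) := by
  unfold qq
  rw [Complex.norm_exp]
  simp

theorem geo_sq (lX lY : E →L[ℝ] ℂ) {σ : ℂ} (hσ : σ ^ 2 = 1) (p : E) :
    zz lX lY p - σ * dd lX lY p = (exp (lX p / 2) - σ * exp (lY p / 2)) ^ 2 / 2 := by
  have h1 : exp (lX p) = exp (lX p / 2) ^ 2 := by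
    rw [← Complex.exp_nat_mul]; congr 1; push_cast; ring
  have h2 : exp (lY p) = exp (lY p / 2) ^ 2 := by
    rw [← Complex.exp_nat_mul]; congr 1; push_cast; ring
  have h3 : dd lX lY p = exp (lX p / 2) * exp (lY p / 2) := by
    unfold dd
    rw [← Complex.exp_add]; congr 1; ring
  unfold zz
  rw [h1, h2, h3]
  linear_combination (-(exp (lY p / 2)) ^ 2 / 2) * hσ

theorem geo_q (lX lY : E →L[ℝ] ℂ) {σ : ℂ} (hσ : σ ^ 2 = 1) (p : E) :
    zz lX lY p - σ * dd lX lY p = exp (lX p) * (1 - σ * qq lX lY p) ^ 2 / 2 := by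
  have h1 := X_mul_qq lX lY p
  have h2 := dd_mul_qq lX lY p
  unfold zz
  rw [← h2, ← h1]
  linear_combination (-(exp (lX p)) * qq lX lY p ^ 2 / 2) * hσ

theorem norm_geo (lX lY : E →L[ℝ] ℂ) {σ : ℂ} (hσ : σ ^ 2 = 1) (p : E) :
    ‖zz lX lY p - σ * dd lX lY p‖ = ‖exp (lX p)‖ * ‖1 - σ * qq lX lY p‖ ^ 2 / 2 := by
  rw [geo_q lX lY hσ, norm_div, norm_mul, norm_pow]
  simp

/-- **the logarithmic derivative of the distance to a root** -/
theorem hasFDerivAt_geo (lX lY : E →L[ℝ] ℂ) {σ : ℂ} (hσ : σ ^ 2 = 1) (p : E) :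
    HasFDerivAt (fun p => zz lX lY p - σ * dd lX lY p)
      ((zz lX lY p - σ * dd lX lY p) • LD lX lY σ p) p := by
  have hX : HasFDerivAt (fun p => exp (lX p)) (exp (lX p) • lX) p := lX.hasFDerivAt.cexp
  have hY : HasFDerivAt (fun p => exp (lY p)) (exp (lY p) • lY) p := lY.hasFDerivAt.cexp
  have hd0 : HasFDerivAt (fun p => (lX p + lY p) / 2) ((2 : ℂ)⁻¹ • (lX + lY)) p := by
    have := ((lX.hasFDerivAt (x := p)).add (lY.hasFDerivAt (x := p))).const_mul ((2 : ℂ)⁻¹)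
    refine this.congr_of_eventuallyEq (Eventually.of_forall fun x => ?_)
    simp only [Pi.add_apply]
    ring
  have hd : HasFDerivAt (fun p => dd lX lY p) (dd lX lY p • ((2 : ℂ)⁻¹ • (lX + lY))) p := hd0.cexp
  have h1 := ((hX.add hY).const_mul ((2 : ℂ)⁻¹)).sub (hd.const_mul σ)
  have h2 : HasFDerivAt (fun p => zz lX lY p - σ * dd lX lY p)
      ((2 : ℂ)⁻¹ • (exp (lX p) • lX + exp (lY p) • lY) -
        σ • (dd lX lY p • ((2 : ℂ)⁻¹ • (lX + lY)))) p := by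
    refine h1.congr_of_eventuallyEq (Eventually.of_forall fun x => ?_)
    simp only [Pi.add_apply, Pi.sub_apply, zz]
    ring
  convert h2 using 1
  ext w
  have e1 := geo_q lX lY hσ p
  have e2 : (1 - σ * qq lX lY p) ^ 2 * (1 - σ * qq lX lY p)⁻¹ = 1 - σ * qq lX lY p := by
    by_cases h0 : 1 - σ * qq lX lY p = 0
    · rw [h0]; simp
    · field_simp
  have e3 := X_mul_qq lX lY p
  have e4 := dd_mul_qq lX lY p
  simp only [ContinuousLinearMap.smul_apply, LD_apply, ContinuousLinearMap.sub_apply,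
    ContinuousLinearMap.add_apply, smul_eq_mul]
  rw [e1]
  have e5 : exp (lX p) * (1 - σ * qq lX lY p) ^ 2 / 2 *
      ((1 - σ * qq lX lY p)⁻¹ * (lX w - σ * qq lX lY p * lY w)) =
      exp (lX p) / 2 * ((1 - σ * qq lX lY p) ^ 2 * (1 - σ * qq lX lY p)⁻¹) *
        (lX w - σ * qq lX lY p * lY w) := by ring
  rw [e5, e2, ← e4, ← e3]
  linear_combination (exp (lX p) * qq lX lY p ^ 2 * lY w / 2) * hσ

/-- off the disc round the root -/
theorem disc {q σ : ℂ} (hσ : ‖σ‖ = 1) {c κ : ℝ} (hκ : κ ≤ 3 / 4)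
    (hκ2 : 2 * κ ^ 2 ≤ c) (h : 2 * c * ‖q‖ ≤ ‖1 - σ * q‖ ^ 2) : κ ≤ ‖1 - σ * q‖ := by
  rcases le_total ‖q‖ (1 / 4) with h1 | h1
  · have h2 : ‖(1 : ℂ)‖ - ‖σ * q‖ ≤ ‖1 - σ * q‖ := norm_sub_norm_le _ _
    rw [norm_mul, hσ, one_mul, norm_one] at h2
    linarith
  · have h2 : κ ^ 2 ≤ ‖1 - σ * q‖ ^ 2 := by
      have : 0 ≤ c := by nlinarith [sq_nonneg κ]
      nlinarith
    exact le_of_sq_le_sq h2 (norm_nonneg _)

theorem norm_sig {σ : ℂ} (hσ : σ ^ 2 = 1) : ‖σ‖ = 1 := by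
  have h : ‖σ‖ ^ 2 = 1 := by rw [← norm_pow, hσ, norm_one]
  have h0 := norm_nonneg σ
  nlinarith

theorem disc_X (lX lY : E →L[ℝ] ℂ) {σ : ℂ} (hσ : σ ^ 2 = 1) {c κ : ℝ}
    (hκ : κ ≤ 3 / 4) (hκ2 : 2 * κ ^ 2 ≤ c) {p : E}
    (h : c * ‖dd lX lY p‖ ≤ ‖zz lX lY p - σ * dd lX lY p‖) : κ ≤ ‖1 - σ * qq lX lY p‖ := by
  refine disc (norm_sig hσ) hκ hκ2 ?_
  rw [norm_geo lX lY hσ, ← X_mul_qq, norm_mul] at h
  have hX : 0 < ‖exp (lX p)‖ := norm_pos_iff.2 (Complex.exp_ne_zero _)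
  have h2 : ‖exp (lX p)‖ * (2 * c * ‖qq lX lY p‖) ≤
      ‖exp (lX p)‖ * ‖1 - σ * qq lX lY p‖ ^ 2 := by linarith
  exact le_of_mul_le_mul_left h2 hX

theorem qq_symm (lX lY : E →L[ℝ] ℂ) (p : E) : qq lY lX p = (qq lX lY p)⁻¹ := by
  unfold qq
  rw [← Complex.exp_neg]
  congr 1; ring

theorem zz_symm (lX lY : E →L[ℝ] ℂ) (p : E) : zz lY lX p = zz lX lY p := by
  unfold zz; rw [add_comm]

theorem dd_symm (lX lY : E →L[ℝ] ℂ) (p : E) : dd lY lX p = dd lX lY p := by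
  unfold dd; rw [add_comm]

theorem LD_symm (lX lY : E →L[ℝ] ℂ) {σ : ℂ} (hσ : σ ^ 2 = 1) (p : E) :
    LD lY lX σ p = LD lX lY σ p := by
  ext w
  rw [LD_apply, LD_apply, qq_symm]
  have hq := qq_ne lX lY p
  have hs : σ ≠ 0 := by rintro rfl; simp at hσ
  by_cases h0 : 1 - σ * qq lX lY p = 0
  · have h1 : σ * qq lX lY p = 1 := by linear_combination -h0
    have h2 : 1 - σ * (qq lX lY p)⁻¹ = 0 := by
      field_simp
      linear_combination σ * h1 - (qq lX lY p) * hσ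
    rw [h0, h2]; simp
  · have h2 : 1 - σ * (qq lX lY p)⁻¹ ≠ 0 := by
      intro h3
      apply h0
      field_simp at h3
      linear_combination (-σ) * h3 - hσ
    have h4 : 1 - σ * (qq lX lY p)⁻¹ = -(σ * (qq lX lY p)⁻¹) * (1 - σ * qq lX lY p) := by
      field_simp
      linear_combination (-(qq lX lY p)) * hσ
    rw [h4, mul_inv, inv_neg, mul_inv, inv_inv]
    have h5 : σ⁻¹ = σ := by
      field_simp
      exact hσ.symm
    rw [h5]
    field_simp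
    linear_combination (lX w) * hσ

/-- the logarithmic derivative is near `lX` for small `Y / X` -/
theorem LD_sub_X (lX lY : E →L[ℝ] ℂ) {σ : ℂ} (hσ : σ ^ 2 = 1) {κ : ℝ} (hκ : 0 < κ) {p : E}
    (h : κ ≤ ‖1 - σ * qq lX lY p‖) (w : E) :
    ‖LD lX lY σ p w - lX w‖ ≤ κ⁻¹ * ‖qq lX lY p‖ * ‖lX w - lY w‖ := by
  have h0 : 1 - σ * qq lX lY p ≠ 0 := by
    intro h1; rw [h1, norm_zero] at h; linarith
  have e : LD lX lY σ p w - lX w =
      (1 - σ * qq lX lY p)⁻¹ * (σ * qq lX lY p) * (lX w - lY w) := by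
    rw [LD_apply]; field_simp; ring
  rw [e, norm_mul, norm_mul, norm_mul, norm_sig hσ, one_mul, norm_inv]
  have h2 : ‖1 - σ * qq lX lY p‖⁻¹ ≤ κ⁻¹ := inv_anti₀ hκ h
  gcongr

/-- the logarithmic derivative is near `lY` for small `X / Y` -/
theorem LD_sub_Y (lX lY : E →L[ℝ] ℂ) {σ : ℂ} (hσ : σ ^ 2 = 1) {κ : ℝ} (hκ : 0 < κ) {p : E}
    (h : κ ≤ ‖1 - σ * (qq lX lY p)⁻¹‖) (w : E) :
    ‖LD lX lY σ p w - lY w‖ ≤ κ⁻¹ * ‖qq lX lY p‖⁻¹ * ‖lX w - lY w‖ := by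
  rw [← qq_symm] at h
  have k := LD_sub_X lY lX hσ hκ h w
  rw [LD_symm lX lY hσ, qq_symm, norm_inv, norm_sub_rev (lY w)] at k
  exact k

/-- off the discs the logarithmic derivative is bounded -/
theorem LD_bound (lX lY : E →L[ℝ] ℂ) {σ : ℂ} (hσ : σ ^ 2 = 1) {c κ : ℝ} (hκ0 : 0 < κ)
    (hκ : κ ≤ 3 / 4) (hκ2 : 2 * κ ^ 2 ≤ c) {p : E}
    (h : c * ‖dd lX lY p‖ ≤ ‖zz lX lY p - σ * dd lX lY p‖) (w : E) :
    ‖LD lX lY σ p w‖ ≤ (1 + κ⁻¹) * (‖lX w‖ + ‖lY w‖) := by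
  have hk : 0 < κ⁻¹ := inv_pos.2 hκ0
  have hs : ‖lX w - lY w‖ ≤ ‖lX w‖ + ‖lY w‖ := norm_sub_le _ _
  have nX := norm_nonneg (lX w)
  have nY := norm_nonneg (lY w)
  rcases le_total ‖qq lX lY p‖ 1 with h1 | h1
  · have k := LD_sub_X lX lY hσ hκ0 (disc_X lX lY hσ hκ hκ2 h) w
    have k2 : ‖LD lX lY σ p w‖ ≤ ‖LD lX lY σ p w - lX w‖ + ‖lX w‖ := by
      have := norm_add_le (LD lX lY σ p w - lX w) (lX w)
      simpa using this
    have k3 : κ⁻¹ * ‖qq lX lY p‖ * ‖lX w - lY w‖ ≤ κ⁻¹ * 1 * (‖lX w‖ + ‖lY w‖) := by gcongr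
    linarith
  · have h' : c * ‖dd lY lX p‖ ≤ ‖zz lY lX p - σ * dd lY lX p‖ := by
      rwa [dd_symm, zz_symm]
    have k0 := disc_X lY lX hσ hκ hκ2 h'
    rw [qq_symm] at k0
    have k := LD_sub_Y lX lY hσ hκ0 k0 w
    have k2 : ‖LD lX lY σ p w‖ ≤ ‖LD lX lY σ p w - lY w‖ + ‖lY w‖ := by
      have := norm_add_le (LD lX lY σ p w - lY w) (lY w)
      simpa using this
    have k4 : ‖qq lX lY p‖⁻¹ ≤ 1 := inv_le_one_of_one_le₀ h1
    have k3 : κ⁻¹ * ‖qq lX lY p‖⁻¹ * ‖lX w - lY w‖ ≤ κ⁻¹ * 1 * (‖lX w‖ + ‖lY w‖) := by gcongr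
    linarith

/-- two marks of a cluster, rigid direction -/
theorem LD_sub_LD (lX lY lX' lY' : E →L[ℝ] ℂ) {σ : ℂ} (hσ : σ ^ 2 = 1) {κ : ℝ} (hκ : 0 < κ)
    {p : E} (h : κ ≤ ‖1 - σ * qq lX lY p‖) (h' : κ ≤ ‖1 - σ * qq lX' lY' p‖) {w : E}
    (hX : lX' w = lX w) (hY : lY' w = lY w) :
    ‖LD lX lY σ p w - LD lX' lY' σ p w‖ ≤
      κ⁻¹ * (‖qq lX lY p‖ + ‖qq lX' lY' p‖) * ‖lX w - lY w‖ := by
  have k := LD_sub_X lX lY hσ hκ h w
  have k' := LD_sub_X lX' lY' hσ hκ h' w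
  rw [hX, hY] at k'
  have e : LD lX lY σ p w - LD lX' lY' σ p w =
      (LD lX lY σ p w - lX w) - (LD lX' lY' σ p w - lX w) := by ring
  rw [e]
  calc _ ≤ _ := norm_sub_le _ _
    _ ≤ κ⁻¹ * ‖qq lX lY p‖ * ‖lX w - lY w‖ + κ⁻¹ * ‖qq lX' lY' p‖ * ‖lX w - lY w‖ := add_le_add k k'
    _ = _ := by ring

/-! ### the derivative of a mark and differences of two marks -/

/-- the derivative of `x - e` -/
def Dz (lX lY : E →L[ℝ] ℂ) (p : E) : E →L[ℝ] ℂ :=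
  (2 : ℂ)⁻¹ • (exp (lX p) • lX + exp (lY p) • lY)

theorem Dz_apply (lX lY : E →L[ℝ] ℂ) (p w : E) :
    Dz lX lY p w = (exp (lX p) * lX w + exp (lY p) * lY w) / 2 := by
  simp only [Dz, ContinuousLinearMap.smul_apply, ContinuousLinearMap.add_apply, smul_eq_mul]
  ring

theorem hasFDerivAt_zz (lX lY : E →L[ℝ] ℂ) (p : E) :
    HasFDerivAt (zz lX lY) (Dz lX lY p) p := by
  have hX : HasFDerivAt (fun p => exp (lX p)) (exp (lX p) • lX) p := lX.hasFDerivAt.cexp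
  have hY : HasFDerivAt (fun p => exp (lY p)) (exp (lY p) • lY) p := lY.hasFDerivAt.cexp
  refine ((hX.add hY).const_mul ((2 : ℂ)⁻¹)).congr_of_eventuallyEq
    (Eventually.of_forall fun x => ?_)
  simp only [Pi.add_apply, zz]
  ring

theorem hasFDerivAt_dd (lX lY : E →L[ℝ] ℂ) (p : E) :
    HasFDerivAt (dd lX lY) (dd lX lY p • ((2 : ℂ)⁻¹ • (lX + lY))) p := by
  have hd0 : HasFDerivAt (fun p => (lX p + lY p) / 2) ((2 : ℂ)⁻¹ • (lX + lY)) p := by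
    have := ((lX.hasFDerivAt (x := p)).add (lY.hasFDerivAt (x := p))).const_mul ((2 : ℂ)⁻¹)
    refine this.congr_of_eventuallyEq (Eventually.of_forall fun x => ?_)
    simp only [Pi.add_apply]
    ring
  exact hd0.cexp

theorem norm_Dz_le (lX lY : E →L[ℝ] ℂ) (p w : E) :
    ‖Dz lX lY p w‖ ≤ (‖exp (lX p)‖ * ‖lX w‖ + ‖exp (lY p)‖ * ‖lY w‖) / 2 := by
  rw [Dz_apply, norm_div]
  have : ‖exp (lX p) * lX w + exp (lY p) * lY w‖ ≤
      ‖exp (lX p)‖ * ‖lX w‖ + ‖exp (lY p)‖ * ‖lY w‖ := by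
    refine (norm_add_le _ _).trans ?_
    rw [norm_mul, norm_mul]
  simpa using div_le_div_of_nonneg_right this (by norm_num : (0 : ℝ) ≤ 2)

/-- the difference of two marks of the same neck -/
theorem pair_eq (lX lY lX' lY' : E →L[ℝ] ℂ) {p : E} (hs : lX p + lY p = lX' p + lY' p) :
    zz lX lY p - zz lX' lY' p =
      (exp (lX p) - exp (lX' p)) * (1 - exp (lY p - lX' p)) / 2 := by
  have h1 : exp (lY p - lX' p) * exp (lX' p) = exp (lY p) := by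
    rw [← Complex.exp_add]; congr 1; ring
  have h2 : exp (lY' p) = exp (lX p) * exp (lY p - lX' p) := by
    rw [← Complex.exp_add]; congr 1; linear_combination -hs
  unfold zz
  rw [h2, ← h1]
  ring

/-- the logarithmic derivative of the difference of two marks in a rigid direction -/
theorem pair_deriv (lX lY lX' lY' : E →L[ℝ] ℂ) {p w : E} (hs : lX p + lY p = lX' p + lY' p)
    (hX : lX' w = lX w) (hY : lY' w = lY w) (h1 : exp (lY p - lX' p) ≠ 1) :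
    Dz lX lY p w - Dz lX' lY' p w = (zz lX lY p - zz lX' lY' p) *
      (lX w + exp (lY p - lX' p) / (1 - exp (lY p - lX' p)) * (lX w - lY w)) := by
  rw [pair_eq lX lY lX' lY' hs, Dz_apply, Dz_apply, hX, hY]
  have h2 : exp (lY p - lX' p) * exp (lX' p) = exp (lY p) := by
    rw [← Complex.exp_add]; congr 1; ring
  have h3 : exp (lY' p) = exp (lX p) * exp (lY p - lX' p) := by
    rw [← Complex.exp_add]; congr 1; linear_combination -hs
  have h4 : 1 - exp (lY p - lX' p) ≠ 0 := sub_ne_zero.2 (Ne.symm h1)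
  rw [h3, ← h2]
  field_simp
  ring

/-! ### the discs of the cut-offs -/

variable {ι : Type*} [Fintype ι] [DecidableEq ι]

/-- the squared scale of a root (helper214) -/
def hhs (b : ι → ℂ) (j : ι) : ℝ := (∑ i ∈ Finset.univ.erase j, (‖b i - b j‖ ^ 2)⁻¹)⁻¹

theorem hh_ge {b : ι → ℂ} {j i₀ : ι} (hi : i₀ ≠ j) {δ : ℝ} (hδ : 0 < δ)
    (h0 : ‖b i₀ - b j‖ = 2 * δ)
    (h : ∀ i, i ≠ j → i ≠ i₀ → (Fintype.card ι : ℝ) * (4 * δ ^ 2) ≤ ‖b i - b j‖ ^ 2) :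
    2 * δ ^ 2 ≤ hhs b j := by
  have hc : 0 < (Fintype.card ι : ℝ) := by
    have : Nonempty ι := ⟨j⟩
    exact_mod_cast Fintype.card_pos
  have hmem : i₀ ∈ Finset.univ.erase j := Finset.mem_erase.2 ⟨hi, Finset.mem_univ _⟩
  have hsum : (∑ i ∈ Finset.univ.erase j, (‖b i - b j‖ ^ 2)⁻¹) ≤ (2 * δ ^ 2)⁻¹ := by
    rw [← Finset.add_sum_erase _ _ hmem, h0]
    have h1 : (∑ i ∈ (Finset.univ.erase j).erase i₀, (‖b i - b j‖ ^ 2)⁻¹) ≤
        ∑ _i ∈ (Finset.univ.erase j).erase i₀, ((Fintype.card ι : ℝ) * (4 * δ ^ 2))⁻¹ := by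
      refine Finset.sum_le_sum fun i hi' => ?_
      rw [Finset.mem_erase, Finset.mem_erase] at hi'
      exact inv_anti₀ (by positivity) (h i hi'.2.1 hi'.1)
    have h2 : (∑ _i ∈ (Finset.univ.erase j).erase i₀, ((Fintype.card ι : ℝ) * (4 * δ ^ 2))⁻¹) ≤
        (4 * δ ^ 2)⁻¹ := by
      rw [Finset.sum_const, nsmul_eq_mul]
      have h3 : ((((Finset.univ : Finset ι).erase j).erase i₀).card : ℝ) ≤ Fintype.card ι := by
        exact_mod_cast (Finset.card_le_univ _)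
      rw [mul_inv, ← mul_assoc]
      have h4 : ((((Finset.univ : Finset ι).erase j).erase i₀).card : ℝ) *
          ((Fintype.card ι : ℝ))⁻¹ ≤ 1 := by
        rw [← div_eq_mul_inv]
        exact (div_le_one hc).2 h3
      have h5 : 0 ≤ (4 * δ ^ 2)⁻¹ := by positivity
      nlinarith
    have h6 : ((2 * δ) ^ 2)⁻¹ + (4 * δ ^ 2)⁻¹ = (2 * δ ^ 2)⁻¹ := by
      field_simp
      ring
    linarith
  have hpos : 0 < ∑ i ∈ Finset.univ.erase j, (‖b i - b j‖ ^ 2)⁻¹ := by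
    rw [← Finset.add_sum_erase _ _ hmem, h0]
    have : 0 ≤ ∑ i ∈ (Finset.univ.erase j).erase i₀, (‖b i - b j‖ ^ 2)⁻¹ :=
      Finset.sum_nonneg fun i _ => by positivity
    positivity
  unfold hhs
  rw [le_inv_comm₀ (by positivity) hpos]
  exact hsum

omit [DecidableEq ι] in
/-- **the scale: its logarithmic derivative is a weighted average** -/
theorem hasFDerivAt_Hs [Nonempty ι] {b : E → ι → ℂ} {x : E → ℂ} {p : E} {L : ι → E →L[ℝ] ℂ}
    (hoff : H578.Off (b p) (x p))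
    (hL : ∀ i, HasFDerivAt (fun p => x p - b p i) ((x p - b p i) • L i) p) :
    HasFDerivAt (fun p => H578.Hs (b p) (x p))
      (H578.Hs (b p) (x p) • ∑ i, (H578.Hs (b p) (x p) ^ 2 / ‖x p - b p i‖ ^ 2) •
        (Complex.reCLM.comp (L i))) p := by
  have h1 : ∀ i, HasFDerivAt (fun p => (‖x p - b p i‖ ^ 2)⁻¹)
      ((-2 * (‖x p - b p i‖ ^ 2)⁻¹) • Complex.reCLM.comp (L i)) p := by
    intro i
    have hne : ‖x p - b p i‖ ^ 2 ≠ 0 := pow_ne_zero _ (hoff.pos i).ne'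
    have k := (hL i).norm_sq
    have k2 := (hasDerivAt_inv hne).comp_hasFDerivAt p k
    refine k2.congr_fderiv ?_
    ext w
    have e : inner ℝ (x p - b p i) ((x p - b p i) * L i w) = ‖x p - b p i‖ ^ 2 * (L i w).re := by
      rw [Complex.inner, ← Complex.normSq_eq_norm_sq, mul_right_comm, Complex.mul_conj,
        Complex.re_ofReal_mul]
    simp only [ContinuousLinearMap.smul_apply, ContinuousLinearMap.comp_apply, Complex.reCLM_apply,
      smul_eq_mul, nsmul_eq_mul, innerSL_apply_apply, e]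
    field_simp
    simp [mul_comm]
  have hS : HasFDerivAt (fun p => ∑ i, (‖x p - b p i‖ ^ 2)⁻¹)
      (∑ i, (-2 * (‖x p - b p i‖ ^ 2)⁻¹) • Complex.reCLM.comp (L i)) p :=
    HasFDerivAt.fun_sum fun i _ => h1 i
  have hpos : 0 < ∑ i, (‖x p - b p i‖ ^ 2)⁻¹ :=
    Finset.sum_pos (fun i _ => inv_pos.2 (pow_pos (hoff.pos i) 2)) Finset.univ_nonempty
  have h2 := (hasDerivAt_inv (Real.sqrt_pos.2 hpos).ne').comp_hasFDerivAt p (hS.sqrt hpos.ne')
  have h3 : HasFDerivAt (fun p => H578.Hs (b p) (x p)) _ p :=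
    h2.congr_of_eventuallyEq (Eventually.of_forall fun y => H578.Hs_eq (b y) (x y))
  refine h3.congr_fderiv ?_
  ext w
  have e2 : H578.Hs (b p) (x p) ^ 2 = (∑ i, (‖x p - b p i‖ ^ 2)⁻¹)⁻¹ := by
    rw [H578.Hs_eq, inv_pow, Real.sq_sqrt hpos.le]
  have e3 : H578.Hs (b p) (x p) = (Real.sqrt (∑ i, (‖x p - b p i‖ ^ 2)⁻¹))⁻¹ := H578.Hs_eq _ _
  simp only [ContinuousLinearMap.smul_apply, ContinuousLinearMap.sum_apply,
    ContinuousLinearMap.comp_apply, Complex.reCLM_apply, smul_eq_mul, e2]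
  rw [e3]
  have hsq := Real.sq_sqrt hpos.le
  have hsp := Real.sqrt_pos.2 hpos
  set S := ∑ i, (‖x p - b p i‖ ^ 2)⁻¹ with hSdef
  set R := Real.sqrt S with hR
  have e4 : (∑ i, S⁻¹ / ‖x p - b p i‖ ^ 2 * (L i w).re) =
      S⁻¹ * ∑ i, (‖x p - b p i‖ ^ 2)⁻¹ * (L i w).re := by
    rw [Finset.mul_sum]
    refine Finset.sum_congr rfl fun i _ => ?_
    rw [div_eq_mul_inv]; ring
  have e5 : (∑ i, -2 * (‖x p - b p i‖ ^ 2)⁻¹ * (L i w).re) =
      -2 * ∑ i, (‖x p - b p i‖ ^ 2)⁻¹ * (L i w).re := by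
    rw [Finset.mul_sum]
    refine Finset.sum_congr rfl fun i _ => ?_
    ring
  rw [e4, e5, ← hsq]
  field_simp

omit [DecidableEq ι] in
/-- the weights have sum one -/
theorem sum_wH [Nonempty ι] {b : ι → ℂ} {x : ℂ} (hoff : H578.Off b x) :
    ∑ i, H578.Hs b x ^ 2 / ‖x - b i‖ ^ 2 = 1 := by
  have hpos : 0 < ∑ i, (‖x - b i‖ ^ 2)⁻¹ :=
    Finset.sum_pos (fun i _ => inv_pos.2 (pow_pos (hoff.pos i) 2)) Finset.univ_nonempty
  have e2 : H578.Hs b x ^ 2 = (∑ i, (‖x - b i‖ ^ 2)⁻¹)⁻¹ := by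
    rw [H578.Hs_eq, inv_pow, Real.sq_sqrt hpos.le]
  simp only [e2, div_eq_mul_inv]
  rw [← Finset.mul_sum]
  exact inv_mul_cancel₀ hpos.ne'

omit [DecidableEq ι] in
/-- the logarithmic derivative of the scale is near `λ`, if the derivatives of the near roots are -/
theorem avg_sub_le [Nonempty ι] {b : ι → ℂ} {x : ℂ} (hoff : H578.Off b x) (L : ι → ℂ) (lam : ℂ) :
    |(∑ i, H578.Hs b x ^ 2 / ‖x - b i‖ ^ 2 * (L i).re) - lam.re| ≤
      ∑ i, H578.Hs b x ^ 2 / ‖x - b i‖ ^ 2 * ‖L i - lam‖ := by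
  have e : (∑ i, H578.Hs b x ^ 2 / ‖x - b i‖ ^ 2 * (L i).re) - lam.re =
      ∑ i, H578.Hs b x ^ 2 / ‖x - b i‖ ^ 2 * (L i - lam).re := by
    have := sum_wH hoff
    calc _ = (∑ i, H578.Hs b x ^ 2 / ‖x - b i‖ ^ 2 * (L i).re) -
          (∑ i, H578.Hs b x ^ 2 / ‖x - b i‖ ^ 2) * lam.re := by rw [this, one_mul]
      _ = _ := by
          rw [Finset.sum_mul, ← Finset.sum_sub_distrib]
          refine Finset.sum_congr rfl fun i _ => ?_
          rw [Complex.sub_re]; ring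
  rw [e]
  refine (Finset.abs_sum_le_sum_abs _ _).trans (Finset.sum_le_sum fun i _ => ?_)
  rw [abs_mul, abs_of_nonneg (by positivity)]
  exact mul_le_mul_of_nonneg_left (Complex.abs_re_le_norm _) (by positivity)

end Vale.Agent.P273.H738
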