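import Vale.Agent.P273.H738.CutL
import Vale.Agent.P273.H778.T2Defs

/-!
# P273, (T2) of ASY0: helper778's inputs (B1)-(B4)
-/

open Filter Topology
open Complex (exp)

noncomputable section

namespace Vale.Agent.P273.H738

open H95 H732 H778

variable {R : Region} {m : ∀ k, Fin (R.n k + 1)} {S : L → Bool} {N₀ : ℝ} {p : H562.Co R m}
  {t : Bool} {k k' : Fin 7}

theorem xM_eq : xM R m S t k p = xq R m S p (k, t) := rfl

theorem xM_sub (i : Fin 6) : xM R m S t k p - bM R m p i = tq m S p (k, t) i := by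
  unfold tq
  rw [xM_eq]
  have e : bM R m p i = rt6 R m p i := by
    show (H562.posE R m p).1 i = rt6 R m p i
    rw [posE_eq]
  rw [e]

theorem off8_of_act (h : Act R m S p t k) : Off8 m S p (k, t) := by
  intro i
  have h1 := h.off i
  rw [xM_sub] at h1
  rw [norm_hd_eq]
  exact h1

theorem ne_of_act (h : Act R m S p t k) : S (k, t) = true → R.pos (ppt R m p) (k, t) ≠ 0 := by
  intro hS h0
  refine h.fin ⟨hS, ?_⟩
  show (H562.posE R m p).2 (k, t) = 0
  rw [posE_eq]
  exact h0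

theorem zone_of_act (h : Act R m S p t k) : ‖xq R m S p (k, t)‖ ≤ 200 := h.zone

theorem logN_of_near' (h : S (k, t) = true → R.pos (ppt R m p) (k, t) ≠ 0) {v : Cc R m} {ζ : ℂ}
    {ρ : ℝ} (hN : Near (tq m S p (k, t)) (fun i => Tq m S p (k, t) i v) ζ ρ) :
    H578.LogN (bM R m) (PMt R m S t k) p v ζ ρ := logN_of_near m h hN

theorem inB1 : InB1 := by
  refine ⟨128 * (200 ^ 2 + 1), 6, by norm_num, fun R m S hS p A t k hk d _ => ?_⟩
  exact logN_of_near' (ne_of_act hk) (near_vec A le_rfl hS (off8_of_act hk) (ne_of_act hk)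
    (by norm_num) (zone_of_act hk) d)

theorem prj_DposE (j : L) (w : Cc R m) (h1 : ∀ i, Drt6 R m p i w = 0) (h2 : Dpos m p j w = 0) :
    H973.prj j (fderiv ℝ (H562.posE R m) p w) = 0 := by
  rw [(hasFDerivAt_posE R m p).fderiv, H973.prj_apply]
  refine Prod.ext ?_ ?_
  · funext i
    exact h1 i
  · exact h2

theorem inB2 : InB2 := by
  refine ⟨1, 6, by norm_num, fun R m S hS p A t k hk f d hd => ?_⟩
  have hw : (wreg R.n m).vec d = (wreg R.n m).vec (.u f) ∨
      (wreg R.n m).vec d = (wreg R.n m).vec (.ph f) := by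
    rcases hd with rfl | rfl
    · exact Or.inl rfl
    · exact Or.inr rfl
  rcases gap_dir0 A (by norm_num) hS (k, t) f hw with h | ⟨-, h⟩
  · left
    refine ⟨logN_of_near' (ne_of_act hk) (near_still fun i => Tq_still h (le3_gap _ f hw)), ?_⟩
    exact prj_DposE (k, t) _ (fun i => Drt6_still (le3_gap _ f hw)) h
  · right
    have := Real.exp_pos (-p.1 f)
    rw [one_mul]
    refine h.trans ?_
    linarith

theorem inB3 : InB3 := by
  refine ⟨2048 * 206, 6, by norm_num, fun R m S hS p A t k hk l hne => ?_⟩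
  refine logN_of_near' (ne_of_act hk) ((near_al' A le_rfl hS (off8_of_act hk) (ne_of_act hk)
    l).mono ?_)
  have h1 := norm_sub_ctr_le (m := m) hS (by norm_num : (1 : ℝ) ≤ 200) (zone_of_act hk) l
  have h2 : 0 < ‖xM R m S t k p - ctr l‖ := norm_pos_iff.2 (sub_ne_zero.2 hne)
  have h3 := szl_pos (m := m) (q := p) (k, t) l
  have e : -p.2.2.1 l / 15 = -(p.2.2.1 l / 15) := by ring
  rw [e, div_le_div_iff₀ h3 h2]
  have h4 : 0 ≤ 2048 * Real.exp (-(p.2.2.1 l / 15)) := by positivity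
  have h5 : 2048 * Real.exp (-(p.2.2.1 l / 15)) * ‖xM R m S t k p - ctr l‖ ≤
      2048 * Real.exp (-(p.2.2.1 l / 15)) * ((200 + 6) * szl m p (k, t) l) :=
    mul_le_mul_of_nonneg_left h1 h4
  refine h5.trans (le_of_eq ?_)
  ring

theorem cl_of_nr (hk : Act R m S p t k) (h : NrM R m S p t k k') : Cl m S p (k, t) (k', t) := by
  intro i
  have hoff : H578.Off (bM R m p) (PMt R m S t k p).1 := by
    intro i
    have h1 := tq_ne (off8_of_act hk) i
    rw [← xM_sub] at h1
    exact sub_ne_zero.1 h1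
  have h1 := H578.Hs_le hoff i
  have h2 : ‖xq R m S p (k, t) - xq R m S p (k', t)‖ < H578.rad k * H578.Hs (bM R m p)
      (PMt R m S t k p).1 := h.2
  have h3 := H578.rad_le k
  have h4 := H578.rad_pos k
  have h5 : ‖(PMt R m S t k p).1 - bM R m p i‖ = ‖tq m S p (k, t) i‖ := by
    rw [← xM_sub]
  rw [h5] at h1
  have h6 := H578.Hs_pos hoff
  have h7 : (H578.rad k : ℝ) ≤ 1 / 2 := by linarith
  calc _ ≤ H578.rad k * H578.Hs (bM R m p) (PMt R m S t k p).1 := h2.le
    _ ≤ 1 / 2 * ‖tq m S p (k, t) i‖ := mul_le_mul h7 h1 h6.le (by norm_num)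

theorem inB4 : InB4 := by
  refine ⟨132, 6, by norm_num, fun R m S hS p A t k k' hk hk' hn l => ?_⟩
  obtain ⟨ζ, h1, h2⟩ := pair_eul A le_rfl hS (off8_of_act hk) (off8_of_act hk') (ne_of_act hk)
    (ne_of_act hk') (cl_of_nr hk hn) (by norm_num : (1 : ℝ) ≤ 200) (zone_of_act hk)
    (zone_of_act hk') l
  exact ⟨ζ, logN_of_near' (ne_of_act hk) h1, logN_of_near' (ne_of_act hk') h2⟩

end Vale.Agent.P273.H738
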