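import Vale.Agent.P273.H738.Geo
import Vale.Agent.P273.H732.Word

/-!
# P273, LIM-G2: all roots seen from a mark

Roots `b i = e (κ i) + s i d (κ i)`, `s i = ± 1`, `d k = c exp (le k / 2)`, `c ^ 2 exp (le k)` is
`ε k`; a mark in the neck `k` has `x = e k + c (exp lX + exp lY) / 2`, `lX + lY = le k` (in the
charts of helper732 `c = 1 / 16`); a mark in a core has any coordinate.  `t i = x - b i`, `t' i` = the derivative in a direction `w`.

Output (the input of helper562): `‖t' i - ζ t i‖ ≤ ρ ‖t i‖ ^ 3 ∑ ‖t j‖ ^ (-2)` for all `i`, with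
`ζ = 0` and a constant `ρ` for all directions, and with small `ρ` for the rigid directions.
-/

open Filter Topology
open Complex (exp)

noncomputable section

namespace Vale.Agent.P273.H738

variable {E : Type*} [NormedAddCommGroup E] [NormedSpace ℝ E]
variable {K : Type*} {ι : Type*} [Fintype ι]

/-- half the distance of the roots of the pair `k` -/
def hd (c : ℂ) (le : K → E →L[ℝ] ℂ) (k : K) (p : E) : ℂ := c * exp (le k p / 2)

/-- the roots -/
def rts (c : ℂ) (e : K → ℂ) (le : K → E →L[ℝ] ℂ) (κ : ι → K) (s : ι → ℂ) (p : E) (i : ι) : ℂ :=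
  e (κ i) + s i * hd c le (κ i) p

/-- the derivative of a root -/
def Drt (c : ℂ) (le : K → E →L[ℝ] ℂ) (κ : ι → K) (s : ι → ℂ) (p : E) (i : ι) : E →L[ℝ] ℂ :=
  (s i * hd c le (κ i) p / 2) • le (κ i)

omit [Fintype ι] in
theorem hasFDerivAt_rts (c : ℂ) (e : K → ℂ) (le : K → E →L[ℝ] ℂ) (κ : ι → K) (s : ι → ℂ) (p : E) (i : ι) :
    HasFDerivAt (fun p => rts c e le κ s p i) (Drt c le κ s p i) p := by
  have h0 : HasFDerivAt (fun p => le (κ i) p / 2) ((2 : ℂ)⁻¹ • le (κ i)) p := by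
    refine (((le (κ i)).hasFDerivAt (x := p)).const_mul ((2 : ℂ)⁻¹)).congr_of_eventuallyEq
      (Eventually.of_forall fun x => ?_)
    change le (κ i) x / 2 = _
    ring
  have h1 := ((h0.cexp.const_mul c).const_mul (s i)).const_add (e (κ i))
  refine h1.congr_fderiv ?_
  ext w
  simp only [Drt, hd, ContinuousLinearMap.smul_apply, smul_eq_mul]
  ring

omit [Fintype ι] in
theorem Drt_apply (c : ℂ) (le : K → E →L[ℝ] ℂ) (κ : ι → K) (s : ι → ℂ) (p : E) (i : ι) (w : E) :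
    Drt c le κ s p i w = s i * hd c le (κ i) p * le (κ i) w / 2 := by
  simp only [Drt, ContinuousLinearMap.smul_apply, smul_eq_mul]
  ring

omit [Fintype ι] in
theorem norm_Drt_le (c : ℂ) (le : K → E →L[ℝ] ℂ) (κ : ι → K) {s : ι → ℂ} (hs : ∀ i, s i ^ 2 = 1) (p : E)
    (i : ι) (w : E) : ‖Drt c le κ s p i w‖ ≤ ‖hd c le (κ i) p‖ * ‖le (κ i) w‖ / 2 := by
  rw [Drt_apply, norm_div, norm_mul, norm_mul, norm_sig (hs i), one_mul]
  simp

/-- the condition on the derivatives of the distances (helper562) -/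
def Near (t t' : ι → ℂ) (ζ : ℂ) (ρ : ℝ) : Prop :=
  ∀ i, ‖t' i - ζ * t i‖ ≤ ρ * ‖t i‖ ^ 3 * ∑ j, (‖t j‖ ^ 2)⁻¹

theorem one_le_sq_mul {t : ι → ℂ} {i : ι} (h : t i ≠ 0) :
    1 ≤ ‖t i‖ ^ 2 * ∑ j, (‖t j‖ ^ 2)⁻¹ := by
  have h0 : 0 < ‖t i‖ ^ 2 := pow_pos (norm_pos_iff.2 h) 2
  have h1 : (‖t i‖ ^ 2)⁻¹ ≤ ∑ j, (‖t j‖ ^ 2)⁻¹ :=
    Finset.single_le_sum (f := fun j => (‖t j‖ ^ 2)⁻¹) (fun j _ => by positivity)
      (Finset.mem_univ i)
  calc (1 : ℝ) = ‖t i‖ ^ 2 * (‖t i‖ ^ 2)⁻¹ := (mul_inv_cancel₀ h0.ne').symm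
    _ ≤ _ := by gcongr

/-- a bound by the distance is enough -/
theorem near_of_le {t : ι → ℂ} {i : ι} (h : t i ≠ 0) {a ρ : ℝ} (ha : a ≤ ρ * ‖t i‖)
    (hρ : 0 ≤ ρ) : a ≤ ρ * ‖t i‖ ^ 3 * ∑ j, (‖t j‖ ^ 2)⁻¹ := by
  have h1 := one_le_sq_mul h
  have h2 : 0 ≤ ρ * ‖t i‖ := by positivity
  calc a ≤ ρ * ‖t i‖ := ha
    _ ≤ ρ * ‖t i‖ * (‖t i‖ ^ 2 * ∑ j, (‖t j‖ ^ 2)⁻¹) := le_mul_of_one_le_right h2 h1
    _ = _ := by ring

/-- far roots: a constant bound, times the squared distance to a near root, is enough -/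
theorem near_of_far {t : ι → ℂ} {i j : ι} (hj : t j ≠ 0) {a A δ : ℝ} (hδ : 0 < δ)
    (hi : δ ≤ ‖t i‖) (ha : a ≤ A * ‖t i‖) (hA : 0 ≤ A) :
    a ≤ (A / δ ^ 2 * ‖t j‖ ^ 2) * ‖t i‖ ^ 3 * ∑ j, (‖t j‖ ^ 2)⁻¹ := by
  have hj0 : 0 < ‖t j‖ ^ 2 := pow_pos (norm_pos_iff.2 hj) 2
  have h1 : (‖t j‖ ^ 2)⁻¹ ≤ ∑ j, (‖t j‖ ^ 2)⁻¹ :=
    Finset.single_le_sum (f := fun j => (‖t j‖ ^ 2)⁻¹) (fun j _ => by positivity)
      (Finset.mem_univ j)
  have h2 : 1 ≤ ‖t j‖ ^ 2 * ∑ j, (‖t j‖ ^ 2)⁻¹ := by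
    calc (1 : ℝ) = ‖t j‖ ^ 2 * (‖t j‖ ^ 2)⁻¹ := (mul_inv_cancel₀ hj0.ne').symm
      _ ≤ _ := by gcongr
  have h3 : 1 ≤ ‖t i‖ ^ 2 / δ ^ 2 := by
    rw [one_le_div (by positivity)]
    gcongr
  have hti : 0 ≤ ‖t i‖ := norm_nonneg _
  calc a ≤ A * ‖t i‖ := ha
    _ ≤ A * ‖t i‖ * (‖t i‖ ^ 2 / δ ^ 2) := le_mul_of_one_le_right (by positivity) h3
    _ ≤ A * ‖t i‖ * (‖t i‖ ^ 2 / δ ^ 2) * (‖t j‖ ^ 2 * ∑ j, (‖t j‖ ^ 2)⁻¹) :=
        le_mul_of_one_le_right (by positivity) h2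
    _ = _ := by ring

/-! ### marks in a neck -/

/-- the data of a mark in a neck -/
structure NeckPt (c : ℂ) (e : K → ℂ) (le : K → E →L[ℝ] ℂ) (κ : ι → K) (s : ι → ℂ) (k : K)
    (lX lY : E →L[ℝ] ℂ) (p : E) (δ : ℝ) : Prop where
  c0 : c ≠ 0
  c1 : ‖c‖ ≤ 1
  sq : ∀ i, s i ^ 2 = 1
  sum : ∀ q, lX q + lY q = le k q
  hX : ‖exp (lX p)‖ ≤ 1
  hY : ‖exp (lY p)‖ ≤ 1
  hd : ∀ l, ‖hd c le l p‖ ≤ 1
  δpos : 0 < δ
  /-- the distance to the other roots -/
  far : ∀ i, κ i ≠ k → δ ≤ ‖e k + c * zz lX lY p - rts c e le κ s p i‖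
  /-- off the discs round the two roots of the neck -/
  off : ∀ i, κ i = k → 1 / 8 * ‖H738.hd c le k p‖ ≤ ‖e k + c * zz lX lY p - rts c e le κ s p i‖

section Neck

variable {c : ℂ} {e : K → ℂ} {le : K → E →L[ℝ] ℂ} {κ : ι → K} {s : ι → ℂ} {k : K} {lX lY : E →L[ℝ] ℂ}
  {p : E} {δ : ℝ}

/-- the derivative of `x - b i` -/
def Tn (c : ℂ) (le : K → E →L[ℝ] ℂ) (κ : ι → K) (s : ι → ℂ) (lX lY : E →L[ℝ] ℂ) (p : E) (i : ι) :
    E →L[ℝ] ℂ := c • Dz lX lY p - Drt c le κ s p i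

omit [Fintype ι] in
theorem hasFDerivAt_Tn (c : ℂ) (e : K → ℂ) (le : K → E →L[ℝ] ℂ) (κ : ι → K) (s : ι → ℂ) (k : K)
    (lX lY : E →L[ℝ] ℂ) (p : E) (i : ι) :
    HasFDerivAt (fun p => e k + c * zz lX lY p - rts c e le κ s p i) (Tn c le κ s lX lY p i) p :=
  (((hasFDerivAt_zz lX lY p).const_mul c).const_add (e k)).sub (hasFDerivAt_rts c e le κ s p i)

omit [Fintype ι] in
theorem hd_eq (h : ∀ q, lX q + lY q = le k q) (q : E) : hd c le k q = c * dd lX lY q := by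
  unfold hd dd
  rw [h]

omit [Fintype ι] in
theorem t_near (h : ∀ q, lX q + lY q = le k q) {i : ι} (hi : κ i = k) (q : E) :
    e k + c * zz lX lY q - rts c e le κ s q i =
      c * (zz lX lY q - s i * dd lX lY q) := by
  unfold rts
  rw [hi, hd_eq h]
  ring

omit [Fintype ι] in
/-- near roots: the logarithmic derivative -/
theorem Tn_eq (h : ∀ q, lX q + lY q = le k q) {i : ι} (hs : s i ^ 2 = 1) (hi : κ i = k) (w : E) :
    Tn c le κ s lX lY p i w =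
      (e k + c * zz lX lY p - rts c e le κ s p i) * LD lX lY (s i) p w := by
  have h1 := hasFDerivAt_Tn c e le κ s k lX lY p i
  have h2 : HasFDerivAt (fun p => e k + c * zz lX lY p - rts c e le κ s p i)
      (c • ((zz lX lY p - s i * dd lX lY p) • LD lX lY (s i) p)) p := by
    refine ((hasFDerivAt_geo lX lY hs p).const_mul c).congr_of_eventuallyEq
      (Eventually.of_forall fun q => ?_)
    exact t_near h hi q
  rw [h1.unique h2, t_near h hi]
  simp only [ContinuousLinearMap.smul_apply, smul_eq_mul]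
  ring

omit [Fintype ι] in
theorem NeckPt.off' (N : NeckPt c e le κ s k lX lY p δ) {i : ι} (hi : κ i = k) :
    1 / 8 * ‖dd lX lY p‖ ≤ ‖zz lX lY p - s i * dd lX lY p‖ := by
  have h := N.off i hi
  rw [t_near N.sum hi, hd_eq N.sum, norm_mul, norm_mul] at h
  have hc : 0 < ‖c‖ := norm_pos_iff.2 N.c0
  have h2 : ‖c‖ * (1 / 8 * ‖dd lX lY p‖) ≤ ‖c‖ * ‖zz lX lY p - s i * dd lX lY p‖ := by linarith
  exact le_of_mul_le_mul_left h2 hc

omit [Fintype ι] in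
theorem NeckPt.kap (N : NeckPt c e le κ s k lX lY p δ) {i : ι} (hi : κ i = k) :
    1 / 4 ≤ ‖1 - s i * qq lX lY p‖ := by
  refine disc_X lX lY (N.sq i) (c := 1 / 8) (by norm_num) (by norm_num) ?_
  exact N.off' hi

omit [Fintype ι] in
theorem NeckPt.kap' (N : NeckPt c e le κ s k lX lY p δ) {i : ι} (hi : κ i = k) :
    1 / 4 ≤ ‖1 - s i * (qq lX lY p)⁻¹‖ := by
  rw [← qq_symm]
  refine disc_X lY lX (N.sq i) (c := 1 / 8) (by norm_num) (by norm_num) ?_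
  have h := N.off' hi
  rwa [dd_symm, zz_symm]

omit [Fintype ι] in
theorem NeckPt.ne (N : NeckPt c e le κ s k lX lY p δ) (i : ι) :
    e k + c * zz lX lY p - rts c e le κ s p i ≠ 0 := by
  by_cases hi : κ i = k
  · have h := N.off i hi
    have h2 : 0 < ‖H738.hd c le k p‖ :=
      norm_pos_iff.2 (mul_ne_zero N.c0 (Complex.exp_ne_zero _))
    exact norm_pos_iff.1 (lt_of_lt_of_le (by positivity) h)
  · exact norm_pos_iff.1 (N.δpos.trans_le (N.far i hi))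

omit [Fintype ι] in
/-- the size of the distance to the near roots -/
theorem NeckPt.near_le (N : NeckPt c e le κ s k lX lY p δ) {i : ι} (hi : κ i = k) :
    ‖e k + c * zz lX lY p - rts c e le κ s p i‖ ≤ ‖exp (lX p)‖ + ‖exp (lY p)‖ := by
  rw [t_near N.sum hi, geo_sq lX lY (N.sq i), norm_mul, norm_div, norm_pow]
  have h1 : ‖exp (lX p / 2) - s i * exp (lY p / 2)‖ ≤ ‖exp (lX p / 2)‖ + ‖exp (lY p / 2)‖ := by
    refine (norm_sub_le _ _).trans ?_
    rw [norm_mul, norm_sig (N.sq i), one_mul]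
  have h2 : ‖exp (lX p)‖ = ‖exp (lX p / 2)‖ ^ 2 := by
    rw [← norm_pow, ← Complex.exp_nat_mul]; congr 2; push_cast; ring
  have h3 : ‖exp (lY p)‖ = ‖exp (lY p / 2)‖ ^ 2 := by
    rw [← norm_pow, ← Complex.exp_nat_mul]; congr 2; push_cast; ring
  rw [h2, h3]
  have h4 : ‖(2 : ℂ)‖ = 2 := by simp
  rw [h4]
  have h5 : ‖exp (lX p / 2) - s i * exp (lY p / 2)‖ ^ 2 ≤
      (‖exp (lX p / 2)‖ + ‖exp (lY p / 2)‖) ^ 2 := by gcongr
  have h6 : ‖exp (lX p / 2) - s i * exp (lY p / 2)‖ ^ 2 / 2 ≤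
      ‖exp (lX p / 2)‖ ^ 2 + ‖exp (lY p / 2)‖ ^ 2 := by
    nlinarith [sq_nonneg (‖exp (lX p / 2)‖ - ‖exp (lY p / 2)‖)]
  calc _ ≤ 1 * (‖exp (lX p / 2) - s i * exp (lY p / 2)‖ ^ 2 / 2) :=
        mul_le_mul_of_nonneg_right N.c1 (by positivity)
    _ ≤ _ := by rw [one_mul]; exact h6

omit [Fintype ι] in
/-- far roots: the derivative -/
theorem NeckPt.norm_Tn_le (N : NeckPt c e le κ s k lX lY p δ) (i : ι) (w : E) :
    ‖Tn c le κ s lX lY p i w‖ ≤ (‖exp (lX p)‖ * ‖lX w‖ + ‖exp (lY p)‖ * ‖lY w‖ +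
      ‖H738.hd c le (κ i) p‖ * ‖le (κ i) w‖) / 2 := by
  have h1 := norm_Dz_le lX lY p w
  have h2 := norm_Drt_le c le κ N.sq p i w
  have h3 : ‖Tn c le κ s lX lY p i w‖ ≤ ‖c‖ * ‖Dz lX lY p w‖ + ‖Drt c le κ s p i w‖ := by
    simp only [Tn, ContinuousLinearMap.sub_apply, ContinuousLinearMap.smul_apply, smul_eq_mul]
    refine (norm_sub_le _ _).trans ?_
    rw [norm_mul]
  have h4 : ‖c‖ * ‖Dz lX lY p w‖ ≤ 1 * ‖Dz lX lY p w‖ :=
    mul_le_mul_of_nonneg_right N.c1 (norm_nonneg _)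
  linarith

/-- the directions: the logarithms have derivatives of size at most one -/
structure Dir1 (le : K → E →L[ℝ] ℂ) (lX lY : E →L[ℝ] ℂ) (w : E) : Prop where
  X : ‖lX w‖ ≤ 1
  Y : ‖lY w‖ ≤ 1
  e : ∀ l, ‖le l w‖ ≤ 1

/-- **all directions: bounded** -/
theorem NeckPt.bdd (N : NeckPt c e le κ s k lX lY p δ) {w : E} (D : Dir1 le lX lY w) :
    Near (fun i => e k + c * zz lX lY p - rts c e le κ s p i) (fun i => Tn c le κ s lX lY p i w) 0
      (10 + 3 / 2 / δ) := by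
  intro i
  have hδ := N.δpos
  have h0 : (0 : ℝ) ≤ 10 + 3 / 2 / δ := by positivity
  refine near_of_le (t := fun i => e k + c * zz lX lY p - rts c e le κ s p i) (N.ne i) ?_ h0
  simp only [zero_mul, sub_zero]
  have ht := norm_nonneg (e k + c * zz lX lY p - rts c e le κ s p i)
  by_cases hi : κ i = k
  · rw [Tn_eq N.sum (N.sq i) hi, norm_mul]
    have h1 : ‖LD lX lY (s i) p w‖ ≤ (1 + (1 / 4 : ℝ)⁻¹) * (‖lX w‖ + ‖lY w‖) := by
      refine LD_bound lX lY (N.sq i) (c := 1 / 8) (by norm_num) (by norm_num) (by norm_num) ?_ w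
      exact N.off' hi
    have h2 : ‖LD lX lY (s i) p w‖ ≤ 10 := by
      have := D.X; have := D.Y
      norm_num at h1
      linarith
    have h3 : 0 ≤ 3 / 2 / δ := by positivity
    calc _ ≤ ‖e k + c * zz lX lY p - rts c e le κ s p i‖ * 10 := by gcongr
      _ ≤ _ := by nlinarith
  · have h1 := N.norm_Tn_le i w
    have h2 := N.far i hi
    have hX : ‖exp (lX p)‖ * ‖lX w‖ ≤ 1 := mul_le_one₀ N.hX (norm_nonneg _) D.X
    have hY : ‖exp (lY p)‖ * ‖lY w‖ ≤ 1 := mul_le_one₀ N.hY (norm_nonneg _) D.Y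
    have hE : ‖H738.hd c le (κ i) p‖ * ‖le (κ i) w‖ ≤ 1 :=
      mul_le_one₀ (N.hd _) (norm_nonneg _) (D.e _)
    have h3 : (3 / 2 : ℝ) ≤ 3 / 2 / δ * ‖e k + c * zz lX lY p - rts c e le κ s p i‖ := by
      rw [div_mul_eq_mul_div, le_div_iff₀ hδ]
      nlinarith
    nlinarith

/-- **rigid directions, first half of the neck**: `ζ = lX w` -/
theorem NeckPt.rigid_X (N : NeckPt c e le κ s k lX lY p δ) {w : E} (D : Dir1 le lX lY w)
    {j : ι} (hj : κ j = k) :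
    Near (fun i => e k + c * zz lX lY p - rts c e le κ s p i) (fun i => Tn c le κ s lX lY p i w) (lX w)
      (8 * ‖qq lX lY p‖ + (3 / 2 / δ + 1) / δ ^ 2 * (‖exp (lX p)‖ + ‖exp (lY p)‖) ^ 2) := by
  intro i
  have hδ := N.δpos
  have hsum : 0 ≤ ∑ j, (‖e k + c * zz lX lY p - rts c e le κ s p j‖ ^ 2)⁻¹ :=
    Finset.sum_nonneg fun j _ => by positivity
  by_cases hi : κ i = k
  · have h1 := LD_sub_X lX lY (N.sq i) (by norm_num : (0 : ℝ) < 1 / 4) (N.kap hi) w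
    have h2 : ‖lX w - lY w‖ ≤ 2 := (norm_sub_le _ _).trans (by linarith [D.X, D.Y])
    have h3 : ‖Tn c le κ s lX lY p i w - lX w * (e k + c * zz lX lY p - rts c e le κ s p i)‖ ≤
        8 * ‖qq lX lY p‖ * ‖e k + c * zz lX lY p - rts c e le κ s p i‖ := by
      rw [Tn_eq N.sum (N.sq i) hi]
      have e1 : (e k + c * zz lX lY p - rts c e le κ s p i) * LD lX lY (s i) p w -
          lX w * (e k + c * zz lX lY p - rts c e le κ s p i) =
          (LD lX lY (s i) p w - lX w) * (e k + c * zz lX lY p - rts c e le κ s p i) := by ring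
      rw [e1, norm_mul]
      refine mul_le_mul_of_nonneg_right ?_ (norm_nonneg _)
      have hq := norm_nonneg (qq lX lY p)
      norm_num at h1
      nlinarith
    refine (near_of_le (t := fun i => e k + c * zz lX lY p - rts c e le κ s p i) (N.ne i) h3
      (by positivity)).trans ?_
    have h4 : 0 ≤ (3 / 2 / δ + 1) / δ ^ 2 * (‖exp (lX p)‖ + ‖exp (lY p)‖) ^ 2 := by positivity
    have h5 : 0 ≤ ‖e k + c * zz lX lY p - rts c e le κ s p i‖ ^ 3 := by positivity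
    refine mul_le_mul_of_nonneg_right ?_ hsum
    exact mul_le_mul_of_nonneg_right (by linarith) h5
  · have h1 := N.norm_Tn_le i w
    have h2 := N.far i hi
    have hX : ‖exp (lX p)‖ * ‖lX w‖ ≤ 1 := mul_le_one₀ N.hX (norm_nonneg _) D.X
    have hY : ‖exp (lY p)‖ * ‖lY w‖ ≤ 1 := mul_le_one₀ N.hY (norm_nonneg _) D.Y
    have hE : ‖H738.hd c le (κ i) p‖ * ‖le (κ i) w‖ ≤ 1 :=
      mul_le_one₀ (N.hd _) (norm_nonneg _) (D.e _)
    have h3 : (3 / 2 : ℝ) ≤ 3 / 2 / δ * ‖e k + c * zz lX lY p - rts c e le κ s p i‖ := by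
      rw [div_mul_eq_mul_div, le_div_iff₀ hδ]
      nlinarith
    have h4 : ‖Tn c le κ s lX lY p i w - lX w * (e k + c * zz lX lY p - rts c e le κ s p i)‖ ≤
        (3 / 2 / δ + 1) * ‖e k + c * zz lX lY p - rts c e le κ s p i‖ := by
      refine (norm_sub_le _ _).trans ?_
      rw [norm_mul]
      have h5 : ‖lX w‖ * ‖e k + c * zz lX lY p - rts c e le κ s p i‖ ≤
          1 * ‖e k + c * zz lX lY p - rts c e le κ s p i‖ :=
        mul_le_mul_of_nonneg_right D.X (norm_nonneg _)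
      nlinarith
    refine (near_of_far (t := fun i => e k + c * zz lX lY p - rts c e le κ s p i) (j := j) (N.ne j) hδ
      h2 h4 (by positivity)).trans ?_
    have h6 := N.near_le hj
    have h7 : 0 ≤ ‖e k + c * zz lX lY p - rts c e le κ s p i‖ ^ 3 := by positivity
    refine mul_le_mul_of_nonneg_right ?_ hsum
    refine mul_le_mul_of_nonneg_right ?_ h7
    have h8 : (3 / 2 / δ + 1) / δ ^ 2 * ‖e k + c * zz lX lY p - rts c e le κ s p j‖ ^ 2 ≤
        (3 / 2 / δ + 1) / δ ^ 2 * (‖exp (lX p)‖ + ‖exp (lY p)‖) ^ 2 := by gcongr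
    have h9 : 0 ≤ 8 * ‖qq lX lY p‖ := by positivity
    linarith

/-- **rigid directions, second half of the neck**: `ζ = lY w` -/
theorem NeckPt.rigid_Y (N : NeckPt c e le κ s k lX lY p δ) {w : E} (D : Dir1 le lX lY w)
    {j : ι} (hj : κ j = k) :
    Near (fun i => e k + c * zz lX lY p - rts c e le κ s p i) (fun i => Tn c le κ s lX lY p i w) (lY w)
      (8 * ‖qq lX lY p‖⁻¹ + (3 / 2 / δ + 1) / δ ^ 2 * (‖exp (lX p)‖ + ‖exp (lY p)‖) ^ 2) := by
  have N' : NeckPt c e le κ s k lY lX p δ :=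
    { c0 := N.c0, c1 := N.c1, sq := N.sq, sum := fun q => by rw [add_comm]; exact N.sum q, hX := N.hY, hY := N.hX,
      hd := N.hd, δpos := N.δpos,
      far := fun i hi => by rw [zz_symm]; exact N.far i hi,
      off := fun i hi => by rw [zz_symm]; exact N.off i hi }
  have D' : Dir1 le lY lX w := ⟨D.Y, D.X, D.e⟩
  have k1 := N'.rigid_X D' hj
  have e1 : ∀ i, Tn c le κ s lY lX p i w = Tn c le κ s lX lY p i w := by
    intro i
    simp only [Tn, ContinuousLinearMap.sub_apply, ContinuousLinearMap.smul_apply, Dz_apply]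
    ring_nf
  simp only [e1, zz_symm lX lY, qq_symm lX lY, norm_inv] at k1
  rw [add_comm ‖exp (lY p)‖] at k1
  exact k1

/-- **directions which do not move `X`** (the mark is on the side of the first core): `ζ = 0` -/
theorem NeckPt.still_X (N : NeckPt c e le κ s k lX lY p δ) {w : E} (D : Dir1 le lX lY w)
    (h0 : lX w = 0) {r : ℝ} (hr : ∀ l, ‖H738.hd c le l p‖ ≤ r) :
    Near (fun i => e k + c * zz lX lY p - rts c e le κ s p i) (fun i => Tn c le κ s lX lY p i w) 0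
      (8 * ‖qq lX lY p‖ + (‖exp (lY p)‖ + r) / δ) := by
  intro i
  have hδ := N.δpos
  have hr0 : 0 ≤ r := (norm_nonneg _).trans (hr k)
  have hq := norm_nonneg (qq lX lY p)
  have ht := norm_nonneg (e k + c * zz lX lY p - rts c e le κ s p i)
  refine near_of_le (t := fun i => e k + c * zz lX lY p - rts c e le κ s p i) (N.ne i) ?_ (by positivity)
  simp only [zero_mul, sub_zero]
  by_cases hi : κ i = k
  · have h1 := LD_sub_X lX lY (N.sq i) (by norm_num : (0 : ℝ) < 1 / 4) (N.kap hi) w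
    have h2 : ‖lX w - lY w‖ ≤ 2 := (norm_sub_le _ _).trans (by linarith [D.X, D.Y])
    rw [h0, sub_zero] at h1
    rw [h0] at h2
    rw [Tn_eq N.sum (N.sq i) hi, norm_mul, mul_comm]
    refine mul_le_mul_of_nonneg_right ?_ ht
    norm_num at h1
    norm_num at h2
    have h3 : 0 ≤ (‖exp (lY p)‖ + r) / δ := by positivity
    nlinarith [D.Y]
  · have h1 := N.norm_Tn_le i w
    have h2 := N.far i hi
    rw [h0, norm_zero, mul_zero, zero_add] at h1
    have hY : ‖exp (lY p)‖ * ‖lY w‖ ≤ ‖exp (lY p)‖ * 1 := by gcongr; exact D.Y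
    have hE : ‖H738.hd c le (κ i) p‖ * ‖le (κ i) w‖ ≤ r * 1 :=
      mul_le_mul (hr _) (D.e _) (norm_nonneg _) hr0
    have h3 : ‖exp (lY p)‖ + r ≤
        (‖exp (lY p)‖ + r) / δ * ‖e k + c * zz lX lY p - rts c e le κ s p i‖ := by
      rw [div_mul_eq_mul_div, le_div_iff₀ hδ]
      exact mul_le_mul_of_nonneg_left h2 (by positivity)
    have h4 := norm_nonneg (exp (lY p))
    nlinarith

/-- **directions which do not move `Y`** (the mark is on the side of the second core): `ζ = 0` -/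
theorem NeckPt.still_Y (N : NeckPt c e le κ s k lX lY p δ) {w : E} (D : Dir1 le lX lY w)
    (h0 : lY w = 0) {r : ℝ} (hr : ∀ l, ‖H738.hd c le l p‖ ≤ r) :
    Near (fun i => e k + c * zz lX lY p - rts c e le κ s p i) (fun i => Tn c le κ s lX lY p i w) 0
      (8 * ‖qq lX lY p‖⁻¹ + (‖exp (lX p)‖ + r) / δ) := by
  have N' : NeckPt c e le κ s k lY lX p δ :=
    { c0 := N.c0, c1 := N.c1, sq := N.sq, sum := fun q => by rw [add_comm]; exact N.sum q, hX := N.hY, hY := N.hX,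
      hd := N.hd, δpos := N.δpos,
      far := fun i hi => by rw [zz_symm]; exact N.far i hi,
      off := fun i hi => by rw [zz_symm]; exact N.off i hi }
  have D' : Dir1 le lY lX w := ⟨D.Y, D.X, D.e⟩
  have k1 := N'.still_X D' h0 hr
  have e1 : ∀ i, Tn c le κ s lY lX p i w = Tn c le κ s lX lY p i w := by
    intro i
    simp only [Tn, ContinuousLinearMap.sub_apply, ContinuousLinearMap.smul_apply, Dz_apply]
    ring_nf
  simp only [e1, zz_symm lX lY, qq_symm lX lY, norm_inv] at k1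
  exact k1

end Neck

/-! ### marks in a core -/

/-- the data of a mark in a core with coordinate function `x`, derivative `x'` -/
structure CorePt (c : ℂ) (e : K → ℂ) (le : K → E →L[ℝ] ℂ) (κ : ι → K) (s : ι → ℂ) (x0 : ℂ) (p : E)
    (δ : ℝ) : Prop where
  sq : ∀ i, s i ^ 2 = 1
  δpos : 0 < δ
  far : ∀ i, δ ≤ ‖x0 - rts c e le κ s p i‖

theorem CorePt.near {c : ℂ} {e : K → ℂ} {le : K → E →L[ℝ] ℂ} {κ : ι → K} {s : ι → ℂ} {x0 : ℂ} {p : E}
    {δ : ℝ} (N : CorePt c e le κ s x0 p δ) {x' : E →L[ℝ] ℂ} {w : E} (hw : ∀ l, ‖le l w‖ ≤ 1)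
    {r : ℝ} (hr : ∀ l, ‖hd c le l p‖ ≤ r) (hr0 : 0 ≤ r) :
    Near (fun i => x0 - rts c e le κ s p i) (fun i => x' w - Drt c le κ s p i w) 0
      ((‖x' w‖ + r) / δ) := by
  intro i
  have hδ := N.δpos
  have hne : x0 - rts c e le κ s p i ≠ 0 := norm_pos_iff.1 (hδ.trans_le (N.far i))
  refine near_of_le (t := fun i => x0 - rts c e le κ s p i) hne ?_ (by positivity)
  simp only [zero_mul, sub_zero]
  have h1 := norm_Drt_le c le κ N.sq p i w
  have h2 : ‖hd c le (κ i) p‖ * ‖le (κ i) w‖ ≤ r * 1 :=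
    mul_le_mul (hr _) (hw _) (norm_nonneg _) hr0
  have h3 : ‖x' w‖ + r ≤ (‖x' w‖ + r) / δ * ‖x0 - rts c e le κ s p i‖ := by
    rw [div_mul_eq_mul_div, le_div_iff₀ hδ]
    exact mul_le_mul_of_nonneg_left (N.far i) (by positivity)
  have h4 := norm_sub_le (x' w) (Drt c le κ s p i w)
  linarith

end Vale.Agent.P273.H738
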